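import Vale.Agent.P063.H868.Width

/-!
# Complete boxes: lower bound for the width
-/

set_option autoImplicit false
set_option linter.unusedSectionVars false

namespace Vale.Agent.P063.H868

open Finset Vale.Agent.P063

section box

variable {r : ℕ} {n : Fin r → ℕ}

/-- sets of cells that contain a complete box of size `t_1 × … × t_r` -/
def hasBox (n t : Fin r → ℕ) : Set (Finset (Cell n)) :=
  {A | ∃ K : (i : Fin r) → Finset (Fin (n i)), (∀ i, (K i).card = t i) ∧
    Fintype.piFinset K ⊆ A}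

lemma box_inv (t : Fin r → ℕ) (s : (i : Fin r) → Equiv.Perm (Fin (n i)))
    (A : Finset (Cell n)) (hA : A ∈ hasBox n t) :
    A.map (Equiv.piCongrRight s).toEmbedding ∈ hasBox n t := by
  obtain ⟨K, hK, hKA⟩ := hA
  refine ⟨fun i => (K i).map (s i).toEmbedding, fun i => by rw [Finset.card_map]; exact hK i, ?_⟩
  intro e he
  rw [Fintype.mem_piFinset] at he
  rw [Finset.mem_map]
  refine ⟨fun i => (s i).symm (e i), hKA ?_, ?_⟩
  · rw [Fintype.mem_piFinset]
    intro i
    have h1 := he i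
    rw [Finset.mem_map_equiv] at h1
    exact h1
  · funext i
    simp [Equiv.piCongrRight_apply, Pi.map_apply]

lemma box_upper (t : Fin r → ℕ) : IsUpperSet (hasBox n t) := by
  rintro A B hAB ⟨K, hK, hKA⟩
  exact ⟨K, hK, hKA.trans hAB⟩

lemma box_nonempty {t : Fin r → ℕ} (ht : ∀ i, t i ≤ n i) : (hasBox n t).Nonempty := by
  have h : ∀ i, ∃ K : Finset (Fin (n i)), K.card = t i := by
    intro i
    obtain ⟨K, -, hK⟩ := Finset.exists_subset_card_eq (s := (Finset.univ : Finset (Fin (n i))))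
      (n := t i) (by simpa only [card_univ, Fintype.card_fin] using ht i)
    exact ⟨K, hK⟩
  choose K hK using h
  exact ⟨Finset.univ, K, hK, Finset.subset_univ _⟩

lemma box_ne_univ {t : Fin r → ℕ} (ht : ∀ i, 1 ≤ t i) : hasBox n t ≠ Set.univ := by
  intro h
  have h1 : (∅ : Finset (Cell n)) ∈ hasBox n t := by rw [h]; trivial
  obtain ⟨K, hK, hKA⟩ := h1
  have h2 : (Fintype.piFinset K).Nonempty := by
    rw [Fintype.piFinset_nonempty]
    intro i
    rw [← Finset.card_pos, hK i]
    exact ht i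
  obtain ⟨e, he⟩ := h2
  exact absurd (hKA he) (Finset.notMem_empty e)

lemma card_box {t : Fin r → ℕ} {K : (i : Fin r) → Finset (Fin (n i))}
    (hK : ∀ i, (K i).card = t i) : (Fintype.piFinset K).card = ∏ i, t i := by
  rw [Fintype.card_piFinset]
  exact Finset.prod_congr rfl fun i _ => hK i

lemma box_first_moment {p : ℝ} (h0 : 0 ≤ p) (h1 : p ≤ 1) (t : Fin r → ℕ) :
    prob (hasBox n t) p ≤ (∏ i, (n i : ℝ) ^ (t i)) * p ^ (∏ i, t i) := by
  classical
  rw [prob_eq]
  set 𝒦 : Finset ((i : Fin r) → Finset (Fin (n i))) :=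
    Fintype.piFinset (fun i => (Finset.univ : Finset (Fin (n i))).powersetCard (t i)) with h𝒦
  have hmemK : ∀ K : (i : Fin r) → Finset (Fin (n i)), K ∈ 𝒦 ↔ ∀ i, (K i).card = t i := by
    intro K
    rw [h𝒦, Fintype.mem_piFinset]
    simp only [Finset.mem_powersetCard, Finset.subset_univ, true_and]
  have hpt : ∀ x : Cell n → Bool, indS (hasBox n t) x
      ≤ ∑ K ∈ 𝒦, (if ∀ e ∈ Fintype.piFinset K, x e = true then (1:ℝ) else 0) := by
    intro x
    have hnn : ∀ K ∈ 𝒦, (0:ℝ) ≤ (if ∀ e ∈ Fintype.piFinset K, x e = true then (1:ℝ) else 0) := by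
      intro K _; split_ifs <;> norm_num
    rcases indS_bool (hasBox n t) x with hx | hx
    · rw [hx]
      exact Finset.sum_nonneg hnn
    · rw [hx]
      obtain ⟨K, hK, hKA⟩ := indS_one.1 hx
      have h2 := Finset.single_le_sum hnn ((hmemK K).2 hK)
      have h3 : ∀ e ∈ Fintype.piFinset K, x e = true := by
        intro e he
        have h4 := hKA he
        rw [Finset.mem_filter] at h4
        exact h4.2
      rw [if_pos h3] at h2
      exact h2
  calc Ex p (indS (hasBox n t)) ≤ _ := Ex_mono h0 h1 hpt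
    _ = ∑ K ∈ 𝒦, p ^ (∏ i, t i) := by
        rw [Ex_sum]
        refine Finset.sum_congr rfl fun K hK => ?_
        rw [Ex_all, card_box ((hmemK K).1 hK)]
    _ = (∏ i, ((n i).choose (t i) : ℝ)) * p ^ (∏ i, t i) := by
        rw [Finset.sum_const, nsmul_eq_mul, h𝒦, Fintype.card_piFinset]
        congr 1
        push_cast
        refine Finset.prod_congr rfl fun i _ => ?_
        rw [Finset.card_powersetCard, Finset.card_univ, Fintype.card_fin]
    _ ≤ (∏ i, (n i : ℝ) ^ (t i)) * p ^ (∏ i, t i) := by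
        apply mul_le_mul_of_nonneg_right _ (by positivity)
        refine Finset.prod_le_prod (fun i _ => Nat.cast_nonneg _) fun i _ => ?_
        exact_mod_cast Nat.choose_le_pow (n i) (t i)

/-- width of the box property from below -/
lemma box_width {t : Fin r → ℕ} (ht1 : ∀ i, 1 ≤ t i) (htn : ∀ i, t i ≤ n i)
    {ε : ℝ} (hε0 : 0 < ε) (hε1 : ε < 1 / 2)
    (hfm : (∏ i, (n i : ℝ) ^ (t i)) * (1 / 2) ^ (∏ i, t i) < ε) :
    Real.log ((1 - ε) / ε) / (2 * ((∏ i, t i : ℕ) : ℝ)) ≤ width ε (prob (hasBox n t)) := by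
  unfold width crit
  refine width_lower (g := prob (hasBox n t)) hε0 hε1
    (Finset.prod_pos fun i _ => ht1 i) (prob_one (box_upper t) (box_nonempty htn))
    (prob_continuous _) (prob_monoOn (box_upper t)) ?_ ?_
  · exact lt_of_le_of_lt (box_first_moment (by norm_num) (by norm_num) t) hfm
  · intro p h0 h1
    obtain ⟨D, hD, hle⟩ := deriv_le h0 h1 (indS (hasBox n t)) (indS_bool _) (∏ i, t i)
      (fun x hx => by
        obtain ⟨K, hK, hKA⟩ := indS_one.1 hx
        refine ⟨Fintype.piFinset K, (card_box hK).le, ?_, ?_⟩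
        · intro e he
          have h4 := hKA he
          rw [Finset.mem_filter] at h4
          exact h4.2
        · intro y hy
          rw [indS_one]
          refine ⟨K, hK, fun e he => ?_⟩
          rw [Finset.mem_filter]
          exact ⟨Finset.mem_univ _, hy e he⟩)
    refine ⟨D, ?_, ?_⟩
    · rw [prob_fun]; exact hD
    · simp only [prob_eq]; exact hle

/-- **lower bound** -/
theorem mlower (hr : 2 ≤ r) {ε : ℝ} (hε0 : 0 < ε) (hε1 : ε < 1 / 2) :
    ∃ c : ℝ, 0 < c ∧ ∃ n0 : ℕ, ∀ n : Fin r → ℕ,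
      (∀ i, n0 ≤ n i ∧ Real.log (n i) ≤ (∏ j, Real.log (n j)) ^ (1 / ((r : ℝ) - 1)) ∧
        (∏ j, Real.log (n j)) ^ (1 / ((r : ℝ) - 1)) ≤ (n i : ℝ) ^ (1 / 12 : ℝ)) →
      ∃ P : Set (Finset (Cell n)),
        (∀ s : (i : Fin r) → Equiv.Perm (Fin (n i)), ∀ A ∈ P,
          A.map (Equiv.piCongrRight s).toEmbedding ∈ P) ∧
        IsUpperSet P ∧ P.Nonempty ∧ P ≠ Set.univ ∧
        c * (∏ j, Real.log (n j)) ^ (-(1 / ((r : ℝ) - 1))) ≤ width ε (prob P) := by
  have hr2 : (2:ℝ) ≤ r := by exact_mod_cast hr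
  have hlog : 0 < Real.log ((1 - ε) / ε) := by
    apply Real.log_pos
    rw [lt_div_iff₀ hε0]
    linarith only [hε1]
  have hlε : Real.log ε < 0 := Real.log_neg hε0 (by linarith only [hε1])
  set A : ℝ := 4 * r + 2 - 2 * Real.log ε with hA
  have hA2 : 2 ≤ A := by rw [hA]; linarith only [hr2, hlε]
  have hA0 : 0 < A := by linarith only [hA2]
  have hA1 : 1 ≤ A := by linarith only [hA2]
  refine ⟨Real.log ((1 - ε) / ε) / (2 * (2 * A) ^ r), by positivity, ⌈4 * A ^ 2⌉₊, ?_⟩
  intro n hn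
  -- basic facts
  have hnA : ∀ i, 4 * A ^ 2 ≤ n i := fun i => (Nat.le_ceil _).trans (by exact_mod_cast (hn i).1)
  have hn3 : ∀ i, (3 : ℝ) ≤ n i := fun i => by
    have h2 : (2:ℝ) ^ 2 ≤ A ^ 2 := pow_le_pow_left₀ (by norm_num) hA2 2
    have := hnA i
    linarith only [h2, this]
  have hnpos : ∀ i, (0 : ℝ) < n i := fun i => by have := hn3 i; linarith only [this]
  have hΛ1 : ∀ i, 1 ≤ Real.log (n i) := fun i => by
    rw [Real.le_log_iff_exp_le (hnpos i)]
    have h1 := Real.exp_one_lt_d9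
    have h2 := hn3 i
    linarith only [h1, h2]
  have hΛ0 : ∀ i, 0 < Real.log (n i) := fun i => by have := hΛ1 i; linarith only [this]
  have hprod : 0 < ∏ i, Real.log (n i) := Finset.prod_pos fun i _ => hΛ0 i
  rw [Real.rpow_neg hprod.le]
  set s : ℝ := (∏ i, Real.log (n i)) ^ (1 / ((r : ℝ) - 1)) with hsdef
  have hs0 : 0 < s := Real.rpow_pos_of_pos hprod _
  have hcast : ((r - 1 : ℕ) : ℝ) = (r : ℝ) - 1 := by
    rw [Nat.cast_sub (by omega)]; simp only [Nat.cast_one]
  have hspow : s ^ (r - 1) = ∏ i, Real.log (n i) := by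
    rw [hsdef, one_div, ← hcast]
    exact Real.rpow_inv_natCast_pow hprod.le (by omega)
  have hsr : s ^ r = s * ∏ i, Real.log (n i) := by
    rw [← hspow]
    obtain ⟨q, rfl⟩ : ∃ q, r = q + 1 := ⟨r - 1, by omega⟩
    simp only [Nat.add_sub_cancel]
    ring
  have hs1 : 1 ≤ s := by
    have h1 := (hn ⟨0, by omega⟩).2.1
    exact (hΛ1 _).trans h1
  -- the sizes
  have hq1 : ∀ i, 1 ≤ A * s / Real.log (n i) := fun i => by
    rw [le_div_iff₀ (hΛ0 i), one_mul]
    calc Real.log (n i) ≤ s := (hn i).2.1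
      _ ≤ A * s := le_mul_of_one_le_left hs0.le hA1
  set t : Fin r → ℕ := fun i => ⌈A * s / Real.log (n i)⌉₊ with ht
  have htlow : ∀ i, A * s / Real.log (n i) ≤ t i := fun i => Nat.le_ceil _
  have htup : ∀ i, (t i : ℝ) ≤ 2 * A * s / Real.log (n i) := fun i => by
    have h1 := Nat.ceil_lt_add_one (le_trans zero_le_one (hq1 i))
    have h2 := hq1 i
    have h3 : 2 * A * s / Real.log (n i)
        = A * s / Real.log (n i) + A * s / Real.log (n i) := by ring
    rw [h3]
    exact h1.le.trans (by linarith only [h2])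
  have ht1 : ∀ i, 1 ≤ t i := fun i => by
    have : (1:ℝ) ≤ t i := (hq1 i).trans (htlow i)
    exact_mod_cast this
  have htn : ∀ i, t i ≤ n i := fun i => by
    have h1 : (t i : ℝ) ≤ 2 * A * s := by
      refine (htup i).trans ?_
      exact div_le_self (by positivity) (hΛ1 i)
    have h2 : s ≤ Real.sqrt (n i) := by
      refine (hn i).2.2.trans ?_
      rw [Real.sqrt_eq_rpow]
      apply Real.rpow_le_rpow_of_exponent_le _ (by norm_num)
      have := hn3 i
      linarith only [this]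
    have h3 : 2 * A ≤ Real.sqrt (n i) := by
      apply Real.le_sqrt_of_sq_le
      calc (2 * A) ^ 2 = 4 * A ^ 2 := by ring
        _ ≤ (n i : ℝ) := hnA i
    have h4 : (t i : ℝ) ≤ n i := by
      calc (t i : ℝ) ≤ 2 * A * s := h1
        _ ≤ Real.sqrt (n i) * Real.sqrt (n i) :=
          mul_le_mul h3 h2 hs0.le (Real.sqrt_nonneg _)
        _ = n i := Real.mul_self_sqrt (hnpos i).le
    exact_mod_cast h4
  -- the number of cells
  have hmlow : A ^ r * s ≤ ((∏ i, t i : ℕ) : ℝ) := by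
    rw [Nat.cast_prod]
    calc A ^ r * s = ∏ i, (A * s / Real.log (n i)) := by
          rw [Finset.prod_div_distrib, Finset.prod_const, Finset.card_univ, Fintype.card_fin,
            mul_pow, hsr]
          field_simp
      _ ≤ ∏ i, (t i : ℝ) := Finset.prod_le_prod
          (fun i _ => le_trans zero_le_one (hq1 i)) fun i _ => htlow i
  have hmup : ((∏ i, t i : ℕ) : ℝ) ≤ (2 * A) ^ r * s := by
    rw [Nat.cast_prod]
    calc ∏ i, (t i : ℝ) ≤ ∏ i, (2 * A * s / Real.log (n i)) :=
          Finset.prod_le_prod (fun i _ => Nat.cast_nonneg _) fun i _ => htup i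
      _ = (2 * A) ^ r * s := by
          rw [Finset.prod_div_distrib, Finset.prod_const, Finset.card_univ, Fintype.card_fin,
            mul_pow (2 * A) s, hsr]
          field_simp
  -- first moment
  have hfm : (∏ i, (n i : ℝ) ^ (t i)) * (1 / 2) ^ (∏ i, t i) < ε := by
    have e1 : (∏ i, (n i : ℝ) ^ (t i)) = Real.exp (∑ i, t i * Real.log (n i)) := by
      rw [Real.exp_sum]
      refine Finset.prod_congr rfl fun i _ => ?_
      rw [Real.exp_nat_mul, Real.exp_log (hnpos i)]
    have e2 : ((1:ℝ) / 2) ^ (∏ i, t i) = Real.exp (-(((∏ i, t i : ℕ) : ℝ) * Real.log 2)) := by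
      rw [Real.exp_neg, Real.exp_nat_mul, Real.exp_log (by norm_num : (0:ℝ) < 2), one_div, inv_pow]
    rw [e1, e2, ← Real.exp_add]
    have h1 : ∑ i, (t i : ℝ) * Real.log (n i) ≤ r * (2 * A * s) := by
      calc ∑ i, (t i : ℝ) * Real.log (n i) ≤ ∑ _i : Fin r, 2 * A * s := by
            refine Finset.sum_le_sum fun i _ => ?_
            have h2 := htup i
            rw [le_div_iff₀ (hΛ0 i)] at h2
            exact h2
        _ = r * (2 * A * s) := by
            rw [Finset.sum_const, Finset.card_univ, Fintype.card_fin, nsmul_eq_mul]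
    have h2 : A ^ 2 * s * (1 / 2) ≤ ((∏ i, t i : ℕ) : ℝ) * Real.log 2 := by
      have h3 : A ^ 2 * s ≤ ((∏ i, t i : ℕ) : ℝ) :=
        (mul_le_mul_of_nonneg_right (pow_le_pow_right₀ hA1 hr) hs0.le).trans hmlow
      have h4 : (1:ℝ) / 2 ≤ Real.log 2 := by
        have := Real.log_two_gt_d9; linarith only [this]
      exact mul_le_mul h3 h4 (by norm_num) (Nat.cast_nonneg _)
    have h5 : r * (2 * A * s) - A ^ 2 * s * (1 / 2) = -(A * s * (1 - Real.log ε)) := by
      have : A ^ 2 = A * (4 * r + 2 - 2 * Real.log ε) := by rw [← hA]; ring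
      rw [this]
      ring
    have h6 : 1 - Real.log ε ≤ A * s * (1 - Real.log ε) := by
      apply le_mul_of_one_le_left (by linarith only [hlε])
      calc (1:ℝ) = 1 * 1 := by ring
        _ ≤ A * s := mul_le_mul hA1 hs1 (by norm_num) hA0.le
    calc Real.exp (∑ i, (t i : ℝ) * Real.log (n i) + -(((∏ i, t i : ℕ) : ℝ) * Real.log 2))
        < Real.exp (Real.log ε) := Real.exp_lt_exp.2 (by linarith only [h1, h2, h5, h6])
      _ = ε := Real.exp_log hε0
  refine ⟨hasBox n t, box_inv t, box_upper t, box_nonempty htn, box_ne_univ ht1, ?_⟩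
  refine le_trans ?_ (box_width ht1 htn hε0 hε1 hfm)
  have hmpos : (0:ℝ) < ((∏ i, t i : ℕ) : ℝ) := by
    exact_mod_cast Finset.prod_pos fun i _ => ht1 i
  rw [le_div_iff₀ (by positivity)]
  calc Real.log ((1 - ε) / ε) / (2 * (2 * A) ^ r) * s⁻¹ * (2 * ((∏ i, t i : ℕ) : ℝ))
      ≤ Real.log ((1 - ε) / ε) / (2 * (2 * A) ^ r) * s⁻¹ * (2 * ((2 * A) ^ r * s)) := by
        apply mul_le_mul_of_nonneg_left _ (by positivity)
        linarith only [hmup]
    _ = Real.log ((1 - ε) / ε) := by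
        field_simp

end box

end Vale.Agent.P063.H868
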