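import Vale.Agent.P063.H868.Box
import Vale.Agent.P063.H291.Lower

/-!
# The old theorem in terms of families of finite sets, and of `SimpleGraph`
-/

set_option autoImplicit false
set_option linter.unusedSectionVars false

namespace Vale.Agent.P063.H868

open Finset Vale.Agent.P063

section hyper

variable {n r : ℕ}

/-- the family of bit vectors of a family of sets -/
def bits {E : Type} [Fintype E] (P : Set (Finset E)) : Set (E → Bool) :=
  {x | Finset.univ.filter (fun e => x e = true) ∈ P}

lemma ind_bits (P : Set (Finset (Edge n r))) : ind (bits P) = indS P := by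
  funext x
  unfold ind indS
  rfl

lemma mu_bits (P : Set (Finset (Edge n r))) (p : ℝ) : mu p (bits P) = prob P p := by
  rw [mu_eq, prob_eq, ind_bits]

lemma width_bits (P : Set (Finset (Edge n r))) (ε : ℝ) :
    Vale.Agent.P063.width ε (bits P) = width ε (prob P) := by
  unfold Vale.Agent.P063.width critProb width crit
  simp only [mu_bits]

lemma bits_upper {E : Type} [Fintype E] {P : Set (Finset E)} (hP : IsUpperSet P) :
    IsUpperSet (bits P) := by
  intro x y hxy hx
  refine hP ?_ hx
  intro e he
  rw [Finset.mem_filter] at he ⊢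
  refine ⟨he.1, ?_⟩
  have := hxy e
  rw [he.2] at this
  exact top_le_iff.1 this

lemma filter_decide {E : Type} [Fintype E] [DecidableEq E] (A : Finset E) :
    Finset.univ.filter (fun e => (decide (e ∈ A)) = true) = A := by
  ext e
  simp

lemma bits_nonempty {E : Type} [Fintype E] [DecidableEq E] {P : Set (Finset E)}
    (hP : P.Nonempty) : (bits P).Nonempty := by
  obtain ⟨A, hA⟩ := hP
  refine ⟨fun e => decide (e ∈ A), ?_⟩
  show Finset.univ.filter (fun e => (decide (e ∈ A)) = true) ∈ P
  rw [filter_decide]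
  exact hA

lemma bits_ne_univ {E : Type} [Fintype E] [DecidableEq E] {P : Set (Finset E)}
    (hP : P ≠ Set.univ) : bits P ≠ Set.univ := by
  intro h
  apply hP
  rw [Set.eq_univ_iff_forall] at h ⊢
  intro A
  have h1 := h (fun e => decide (e ∈ A))
  change Finset.univ.filter (fun e => (decide (e ∈ A)) = true) ∈ P at h1
  rw [filter_decide] at h1
  exact h1

lemma moveEdge_eq (s : Equiv.Perm (Fin n)) (e : Edge n r) : moveEdge s e = permEdge s e := rfl

lemma bits_property {P : Set (Finset (Edge n r))}
    (hP : ∀ s : Equiv.Perm (Fin n), ∀ H ∈ P, H.image (moveEdge s) ∈ P) :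
    IsProperty (bits P) := by
  have key : ∀ (s : Equiv.Perm (Fin n)) (x : Edge n r → Bool),
      (fun e => x (permEdge s e)) ∈ bits P → x ∈ bits P := by
    intro s x hx
    have h1 := hP s _ hx
    change Finset.univ.filter (fun e => x e = true) ∈ P
    convert h1 using 1
    ext e
    simp only [Finset.mem_filter, Finset.mem_univ, true_and, Finset.mem_image]
    constructor
    · intro he
      refine ⟨(edgePerm r s).symm e, ?_, ?_⟩
      · have h2 : permEdge s ((edgePerm r s).symm e) = e := (edgePerm r s).apply_symm_apply e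
        rw [h2]
        exact he
      · exact (edgePerm r s).apply_symm_apply e
    · rintro ⟨a, ha, rfl⟩
      exact ha
  intro s x
  refine ⟨key s x, fun hx => ?_⟩
  apply key s.symm
  have : (fun e => (fun e => x (permEdge s e)) (permEdge s.symm e)) = x := by
    funext e
    have h1 : permEdge s (permEdge s.symm e) = e := by
      apply Subtype.ext
      ext a
      simp only [permEdge, mem_map_equiv, mem_map_mk]
    simp only [h1]
  rw [this]
  exact hx

/-- Q2 for families of finite sets, uniform in `ε` -/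
theorem hyper_upper (hr : 2 ≤ r) : ∃ C : ℝ, 0 < C ∧ ∀ n : ℕ, r ≤ n →
    ∀ P : Set (Finset (Edge n r)),
      (∀ s : Equiv.Perm (Fin n), ∀ H ∈ P, H.image (moveEdge s) ∈ P) →
      IsUpperSet P → P.Nonempty → P ≠ Set.univ → ∀ ε : ℝ, 0 < ε → ε < 1 / 2 →
        width ε (prob P) ≤ C * Real.log ((1 - ε) / ε) *
          Real.log n ^ (-((r : ℝ) / ((r : ℝ) - 1))) := by
  obtain ⟨C, hC, hinf⟩ := H291.infl_all hr
  refine ⟨2 * C, by positivity, ?_⟩
  intro n hrn P hinv hP hne _ ε h0 h1
  have h2 := H291.crit_upper hr hC hrn (bits_upper hP) (bits_nonempty hne)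
    (hinf n hrn (bits P) (bits_property hinv)) (a := ε) (b := 1 - ε) h0
    (by linarith only [h1]) (by linarith only [h0])
  rw [H291.logit_two h0 h1] at h2
  rw [← width_bits]
  refine le_trans h2 (le_of_eq ?_)
  ring

/-- the family of sets of a family of bit vectors -/
def sets {E : Type} [Fintype E] [DecidableEq E] (Q : Set (E → Bool)) : Set (Finset E) :=
  {A | (fun e => decide (e ∈ A)) ∈ Q}

lemma decide_filter {E : Type} [Fintype E] [DecidableEq E] (x : E → Bool) :
    (fun e => decide (e ∈ Finset.univ.filter (fun e => x e = true))) = x := by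
  funext e
  simp

lemma bits_sets {E : Type} [Fintype E] [DecidableEq E] (Q : Set (E → Bool)) :
    bits (sets Q) = Q := by
  ext x
  change (fun e => decide (e ∈ Finset.univ.filter (fun e => x e = true))) ∈ Q ↔ x ∈ Q
  rw [decide_filter]

lemma sets_upper {E : Type} [Fintype E] [DecidableEq E] {Q : Set (E → Bool)}
    (hQ : IsUpperSet Q) : IsUpperSet (sets Q) := by
  intro A B hAB hA
  refine hQ ?_ hA
  intro e
  show decide (e ∈ A) ≤ decide (e ∈ B)
  by_cases he : e ∈ A
  · simp [he, hAB he]
  · simp [he]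

lemma sets_nonempty {E : Type} [Fintype E] [DecidableEq E] {Q : Set (E → Bool)}
    (hQ : Q.Nonempty) : (sets Q).Nonempty := by
  obtain ⟨x, hx⟩ := hQ
  refine ⟨Finset.univ.filter (fun e => x e = true), ?_⟩
  change (fun e => decide (e ∈ Finset.univ.filter (fun e => x e = true))) ∈ Q
  rw [decide_filter]
  exact hx

lemma sets_ne_univ {E : Type} [Fintype E] [DecidableEq E] {Q : Set (E → Bool)}
    (hQ : Q ≠ Set.univ) : sets Q ≠ Set.univ := by
  intro h
  apply hQ
  rw [Set.eq_univ_iff_forall] at h ⊢
  intro x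
  have h1 := h (Finset.univ.filter (fun e => x e = true))
  change (fun e => decide (e ∈ Finset.univ.filter (fun e => x e = true))) ∈ Q at h1
  rw [decide_filter] at h1
  exact h1

lemma sets_inv {Q : Set (Edge n r → Bool)} (hQ : IsProperty Q) (s : Equiv.Perm (Fin n))
    (H : Finset (Edge n r)) (hH : H ∈ sets Q) : H.image (moveEdge s) ∈ sets Q := by
  change (fun e => decide (e ∈ H.image (moveEdge s))) ∈ Q
  rw [← hQ s]
  have h9 : (fun e => decide (permEdge s e ∈ H.image (moveEdge s)))
      = fun e => decide (e ∈ H) := by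
    funext e
    have : permEdge s e ∈ H.image (moveEdge s) ↔ e ∈ H := by
      rw [Finset.mem_image]
      constructor
      · rintro ⟨a, ha, hae⟩
        have h2 : a = e := (edgePerm r s).injective hae
        rwa [← h2]
      · intro he
        exact ⟨e, he, rfl⟩
    simp only [this]
  change (fun e => decide (permEdge s e ∈ H.image (moveEdge s))) ∈ Q
  rw [h9]
  exact hH

/-- lower bound for families of finite sets -/
theorem hyper_lower (hr : 2 ≤ r) {ε : ℝ} (hε0 : 0 < ε) (hε1 : ε < 1 / 2) :
    ∃ c : ℝ, 0 < c ∧ ∃ n0 : ℕ, ∀ n : ℕ, n0 ≤ n → ∃ P : Set (Finset (Edge n r)),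
      (∀ s : Equiv.Perm (Fin n), ∀ H ∈ P, H.image (moveEdge s) ∈ P) ∧
      IsUpperSet P ∧ P.Nonempty ∧ P ≠ Set.univ ∧
      c * Real.log n ^ (-((r : ℝ) / ((r : ℝ) - 1))) ≤ width ε (prob P) := by
  obtain ⟨c, hc, n0, hn02, h⟩ := lower hr hε0 hε1
  refine ⟨c, hc, n0, fun n hn => ?_⟩
  obtain ⟨Q, h1, h2, h3, h4, h5⟩ := h n hn
  refine ⟨sets Q, fun s H hH => sets_inv h1 s H hH, sets_upper h2, sets_nonempty h3,
    sets_ne_univ h4, ?_⟩
  rw [← width_bits, bits_sets]
  exact h5

end hyper

end Vale.Agent.P063.H868
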