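import Vale.Agent.P063.MathlibUsed
import Mathlib.Combinatorics.SimpleGraph.Finite
import Mathlib.Combinatorics.SimpleGraph.Maps

/-!
# Random subsets, random graphs, threshold widths
-/

set_option autoImplicit false

namespace Vale.Agent.P063.H868

open Classical in
/-- `prob P p`: the probability that the random subset of the finite set `E`, in which each element
is present independently with probability `p`, belongs to the family `P` of subsets of `E`. -/
noncomputable def prob {E : Type} [Fintype E] (P : Set (Finset E)) (p : ℝ) : ℝ :=
  ∑ A : Finset E, if A ∈ P then p ^ A.card * (1 - p) ^ (Fintype.card E - A.card) else 0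

open Classical in
/-- `graphProb P p`: the probability that the random graph `G(n, p)` on the vertex set `Fin n`, each
of the `n.choose 2` edges being present independently with probability `p`, belongs to `P`. -/
noncomputable def graphProb {n : ℕ} (P : Set (SimpleGraph (Fin n))) (p : ℝ) : ℝ :=
  ∑ G : SimpleGraph (Fin n), if G ∈ P then
    p ^ G.edgeSet.ncard * (1 - p) ^ (n.choose 2 - G.edgeSet.ncard) else 0

/-- For `g p = μ_p(P)` this is `p_a(P) = inf {p ∈ [0,1] : μ_p(P) ≥ a}`. -/
noncomputable def crit (g : ℝ → ℝ) (a : ℝ) : ℝ := sInf {p : ℝ | 0 ≤ p ∧ p ≤ 1 ∧ a ≤ g p}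

/-- For `g p = μ_p(P)` this is the threshold width `w_ε(P) = p_{1-ε}(P) - p_ε(P)`. -/
noncomputable def width (ε : ℝ) (g : ℝ → ℝ) : ℝ := crit g (1 - ε) - crit g ε

/-- Nontrivial increasing graph properties on the vertex set `Fin n`: families of graphs that are
closed under isomorphism and under adding edges, and neither empty nor everything. -/
def GraphProperty {n : ℕ} (P : Set (SimpleGraph (Fin n))) : Prop :=
  (∀ G H : SimpleGraph (Fin n), G ∈ P → Nonempty (G ≃g H) → H ∈ P) ∧
    IsUpperSet P ∧ P.Nonempty ∧ P ≠ Set.univ

/-- The image of an `r`-element subset of `[n]` under a permutation of `[n]`. -/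
def moveEdge {n r : ℕ} (s : Equiv.Perm (Fin n)) (e : {e : Finset (Fin n) // e.card = r}) :
    {e : Finset (Fin n) // e.card = r} :=
  ⟨e.1.map s.toEmbedding, by rw [Finset.card_map]; exact e.2⟩

/-- Nontrivial increasing `r`-uniform hypergraph properties on the vertex set `Fin n`: a hypergraph
is a finite set of `r`-element subsets of `Fin n`; the property is invariant under all permutations
of the vertices. -/
def HypergraphProperty {n r : ℕ} (P : Set (Finset {e : Finset (Fin n) // e.card = r})) : Prop :=
  (∀ s : Equiv.Perm (Fin n), ∀ H ∈ P, H.image (moveEdge s) ∈ P) ∧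
    IsUpperSet P ∧ P.Nonempty ∧ P ≠ Set.univ

/-- Nontrivial increasing properties of `r`-partite `r`-uniform hypergraphs with vertex classes
`Fin (n 0), …, Fin (n (r-1))` (for `r = 2`: of Boolean `n 0 × n 1` matrices): families of subsets of
the product of the classes that are invariant under all permutations of each class. -/
def MultipartiteProperty {r : ℕ} {n : Fin r → ℕ} (P : Set (Finset ((i : Fin r) → Fin (n i)))) :
    Prop :=
  (∀ s : (i : Fin r) → Equiv.Perm (Fin (n i)), ∀ A ∈ P,
      A.map (Equiv.piCongrRight s).toEmbedding ∈ P) ∧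
    IsUpperSet P ∧ P.Nonempty ∧ P ≠ Set.univ

end Vale.Agent.P063.H868
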