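import Vale.Agent.P063.H868.Graph

/-!
# Multipartite properties: the final statements
-/

set_option autoImplicit false

namespace Vale.Agent.P063.H868

open Finset Vale.Agent.P063

/-- upper bound for all sizes -/
theorem m_upper (r : ℕ) (hr : 2 ≤ r) (n : Fin r → ℕ) (hn : ∀ i, 2 ≤ n i)
    (P : Set (Finset ((i : Fin r) → Fin (n i)))) (hP : MultipartiteProperty P)
    (ε : ℝ) (h0 : 0 < ε) (h1 : ε < 1 / 2) :
    width ε (prob P) ≤ 2048 * r * Real.log ((1 - ε) / ε) *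
      ((∏ i, Real.log (n i)) ^ (-(1 / ((r : ℝ) - 1))) + ∑ i, (n i : ℝ) ^ (-(1 / 12 : ℝ))) := by
  have h := mwidth hr hn hP.1 hP.2.1 hP.2.2.1 h0 h1
  unfold Theta at h
  refine h.trans (le_of_eq ?_)
  ring

/-- exact order -/
theorem m_order (r : ℕ) (hr : 2 ≤ r) (ε : ℝ) (h0 : 0 < ε) (h1 : ε < 1 / 2) :
    ∃ c C : ℝ, 0 < c ∧ 0 < C ∧ ∃ n0 : ℕ, ∀ n : Fin r → ℕ,
      (∀ i, n0 ≤ n i ∧ Real.log (n i) ≤ (∏ j, Real.log (n j)) ^ (1 / ((r : ℝ) - 1)) ∧
        (∏ j, Real.log (n j)) ^ (1 / ((r : ℝ) - 1)) ≤ (n i : ℝ) ^ (1 / 12 : ℝ)) →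
      (∀ P : Set (Finset ((i : Fin r) → Fin (n i))), MultipartiteProperty P →
        width ε (prob P) ≤ C * (∏ j, Real.log (n j)) ^ (-(1 / ((r : ℝ) - 1)))) ∧
      ∃ P : Set (Finset ((i : Fin r) → Fin (n i))), MultipartiteProperty P ∧
        c * (∏ j, Real.log (n j)) ^ (-(1 / ((r : ℝ) - 1))) ≤ width ε (prob P) := by
  obtain ⟨c, hc, n0, hlow⟩ := mlower hr h0 h1
  have hr2 : (2:ℝ) ≤ r := by exact_mod_cast hr
  have hlog : 0 < Real.log ((1 - ε) / ε) := by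
    apply Real.log_pos
    rw [lt_div_iff₀ h0]
    linarith only [h1]
  refine ⟨c, 2048 * r * Real.log ((1 - ε) / ε) * (1 + r), hc, by positivity, max n0 3, ?_⟩
  intro n hn
  refine ⟨fun P hP => ?_, ?_⟩
  · have hn3 : ∀ i, 3 ≤ n i := fun i => le_trans (le_max_right _ _) (hn i).1
    have hnpos : ∀ i, (0:ℝ) < n i := fun i => by
      have := hn3 i
      have : 0 < n i := by omega
      exact_mod_cast this
    have hΛ0 : ∀ i, 0 < Real.log (n i) := fun i => Real.log_pos (by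
      have : (3:ℝ) ≤ n i := by exact_mod_cast hn3 i
      linarith only [this])
    have hprod : 0 < ∏ i, Real.log (n i) := Finset.prod_pos fun i _ => hΛ0 i
    have h2 := m_upper r hr n (fun i => le_trans (by norm_num) (hn3 i)) P hP ε h0 h1
    refine h2.trans ?_
    have hs : (∏ j, Real.log (n j)) ^ (-(1 / ((r : ℝ) - 1)))
        = ((∏ j, Real.log (n j)) ^ (1 / ((r : ℝ) - 1)))⁻¹ := Real.rpow_neg hprod.le _
    have hs0 : 0 < (∏ j, Real.log (n j)) ^ (1 / ((r : ℝ) - 1)) := Real.rpow_pos_of_pos hprod _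
    have h3 : ∑ i, (n i : ℝ) ^ (-(1 / 12 : ℝ))
        ≤ r * (∏ j, Real.log (n j)) ^ (-(1 / ((r : ℝ) - 1))) := by
      calc ∑ i, (n i : ℝ) ^ (-(1 / 12 : ℝ))
          ≤ ∑ _i : Fin r, (∏ j, Real.log (n j)) ^ (-(1 / ((r : ℝ) - 1))) := by
            refine Finset.sum_le_sum fun i _ => ?_
            rw [hs, Real.rpow_neg (hnpos i).le]
            exact inv_anti₀ hs0 (hn i).2.2
        _ = _ := by rw [Finset.sum_const, Finset.card_univ, Fintype.card_fin, nsmul_eq_mul]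
    calc 2048 * r * Real.log ((1 - ε) / ε) *
        ((∏ i, Real.log (n i)) ^ (-(1 / ((r : ℝ) - 1))) + ∑ i, (n i : ℝ) ^ (-(1 / 12 : ℝ)))
        ≤ 2048 * r * Real.log ((1 - ε) / ε) * ((∏ i, Real.log (n i)) ^ (-(1 / ((r : ℝ) - 1)))
          + r * (∏ j, Real.log (n j)) ^ (-(1 / ((r : ℝ) - 1)))) := by
          apply mul_le_mul_of_nonneg_left _ (by positivity)
          linarith only [h3]
      _ = _ := by ring
  · obtain ⟨P, e1, e2, e3, e4, e5⟩ := hlow n (fun i =>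
      ⟨le_trans (le_max_left _ _) (hn i).1, (hn i).2⟩)
    exact ⟨P, ⟨e1, e2, e3, e4⟩, e5⟩

end Vale.Agent.P063.H868
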