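import Vale.Agent.P063.H868.Bridge

/-!
# Graph properties in terms of `SimpleGraph`
-/

set_option autoImplicit false
set_option linter.unusedSectionVars false

namespace Vale.Agent.P063.H868

open Finset Vale.Agent.P063

section graph

variable {n : ℕ}

/-- the graph of a set of `2`-subsets -/
def toG (H : Finset (Edge n 2)) : SimpleGraph (Fin n) where
  Adj a b := ∃ e ∈ H, e.1 = {a, b}
  symm := by
    constructor
    rintro a b ⟨e, he, h⟩
    exact ⟨e, he, by rw [h, Finset.pair_comm]⟩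
  loopless := by
    constructor
    rintro a ⟨e, he, h⟩
    have h1 := e.2
    rw [h] at h1
    simp at h1

lemma toG_adj (H : Finset (Edge n 2)) (a b : Fin n) :
    (toG H).Adj a b ↔ ∃ e ∈ H, e.1 = {a, b} := Iff.rfl

open Classical in
/-- the set of `2`-subsets of a graph -/
noncomputable def fromG (G : SimpleGraph (Fin n)) : Finset (Edge n 2) :=
  Finset.univ.filter (fun e => ∃ a b, e.1 = {a, b} ∧ G.Adj a b)

lemma mem_fromG (G : SimpleGraph (Fin n)) (e : Edge n 2) :
    e ∈ fromG G ↔ ∃ a b, e.1 = {a, b} ∧ G.Adj a b := by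
  unfold fromG
  simp only [Finset.mem_filter, Finset.mem_univ, true_and]

lemma pair_cases {a b c d : Fin n} (h : ({a, b} : Finset (Fin n)) = {c, d}) :
    (a = c ∧ b = d) ∨ (a = d ∧ b = c) := by
  have h1 : ({a, b} : Set (Fin n)) = {c, d} := by
    have := congrArg (fun s : Finset (Fin n) => (s : Set (Fin n))) h
    simpa using this
  exact Set.pair_eq_pair_iff.1 h1

lemma toG_fromG (G : SimpleGraph (Fin n)) : toG (fromG G) = G := by
  ext a b
  rw [toG_adj]
  constructor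
  · rintro ⟨e, he, h⟩
    rw [mem_fromG] at he
    obtain ⟨c, d, h1, h2⟩ := he
    rw [h] at h1
    rcases pair_cases h1 with ⟨rfl, rfl⟩ | ⟨rfl, rfl⟩
    · exact h2
    · exact h2.symm
  · intro h
    exact ⟨⟨{a, b}, Finset.card_pair h.ne⟩, (mem_fromG _ _).2 ⟨a, b, rfl, h⟩, rfl⟩

lemma fromG_toG (H : Finset (Edge n 2)) : fromG (toG H) = H := by
  ext e
  rw [mem_fromG]
  constructor
  · rintro ⟨a, b, h, e', he', h'⟩
    have : e = e' := Subtype.ext (h.trans h'.symm)
    rwa [this]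
  · intro he
    obtain ⟨a, b, -, h⟩ := Finset.card_eq_two.1 e.2
    exact ⟨a, b, h, e, he, h⟩

/-- graphs are sets of `2`-subsets -/
noncomputable def gEquiv : Finset (Edge n 2) ≃ SimpleGraph (Fin n) where
  toFun := toG
  invFun := fromG
  left_inv := fromG_toG
  right_inv := toG_fromG

lemma toG_mono {H H' : Finset (Edge n 2)} (h : H ≤ H') : toG H ≤ toG H' := by
  intro a b
  rintro ⟨e, he, h1⟩
  exact ⟨e, h he, h1⟩

lemma fromG_mono {G G' : SimpleGraph (Fin n)} (h : G ≤ G') : fromG G ≤ fromG G' := by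
  intro e he
  rw [mem_fromG] at he ⊢
  obtain ⟨a, b, h1, h2⟩ := he
  exact ⟨a, b, h1, h h2⟩

lemma ncard_toG (H : Finset (Edge n 2)) : (toG H).edgeSet.ncard = H.card := by
  classical
  have h1 : Set.InjOn (Sym2.toFinset (α := Fin n)) (toG H).edgeSet := by
    intro z _ z' _ h
    apply Sym2.ext
    intro x
    rw [← Sym2.mem_toFinset, ← Sym2.mem_toFinset, h]
  have h2 : Sym2.toFinset '' (toG H).edgeSet = ((H.map (Function.Embedding.subtype _) :
      Finset (Finset (Fin n))) : Set (Finset (Fin n))) := by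
    ext t
    simp only [Set.mem_image, Finset.coe_map, Function.Embedding.coe_subtype]
    constructor
    · rintro ⟨z, hz, rfl⟩
      induction z using Sym2.ind with
      | _ a b =>
        rw [SimpleGraph.mem_edgeSet, toG_adj] at hz
        obtain ⟨e, he, h⟩ := hz
        refine ⟨e, he, ?_⟩
        rw [h]
        ext x
        simp [Sym2.mem_toFinset]
    · rintro ⟨e, he, rfl⟩
      obtain ⟨a, b, -, h⟩ := Finset.card_eq_two.1 e.2
      refine ⟨s(a, b), ?_, ?_⟩
      · rw [SimpleGraph.mem_edgeSet, toG_adj]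
        exact ⟨e, he, h⟩
      · rw [h]
        ext x
        simp [Sym2.mem_toFinset]
  rw [← Set.InjOn.ncard_image h1, h2, Set.ncard_coe_finset, Finset.card_map]

lemma card_edge (n : ℕ) : Fintype.card (Edge n 2) = n.choose 2 := by
  rw [Fintype.card_finset_len, Fintype.card_fin]

lemma graphProb_eq (P : Set (SimpleGraph (Fin n))) :
    graphProb P = prob {H : Finset (Edge n 2) | toG H ∈ P} := by
  classical
  funext p
  unfold graphProb prob
  symm
  refine Fintype.sum_equiv gEquiv _ _ ?_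
  intro H
  have e1 : gEquiv H = toG H := rfl
  rw [e1, ncard_toG, card_edge]
  rfl

/-- the isomorphism given by a permutation -/
lemma iso_image (s : Equiv.Perm (Fin n)) (H : Finset (Edge n 2)) :
    Nonempty (toG H ≃g toG (H.image (moveEdge s))) := by
  refine ⟨⟨s, ?_⟩⟩
  intro a b
  rw [toG_adj, toG_adj]
  constructor
  · rintro ⟨e, he, h⟩
    rw [Finset.mem_image] at he
    obtain ⟨e', he', rfl⟩ := he
    refine ⟨e', he', ?_⟩
    have h2 : e'.1.map s.toEmbedding = ({a, b} : Finset (Fin n)).map s.toEmbedding := by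
      rw [Finset.map_insert, Finset.map_singleton]
      exact h
    exact Finset.map_injective _ h2
  · rintro ⟨e, he, h⟩
    refine ⟨moveEdge s e, Finset.mem_image_of_mem _ he, ?_⟩
    show e.1.map s.toEmbedding = _
    rw [h, Finset.map_insert, Finset.map_singleton]
    rfl

lemma fromG_iso {G G' : SimpleGraph (Fin n)} (φ : G ≃g G') :
    fromG G' = (fromG G).image (moveEdge φ.toEquiv) := by
  ext e
  rw [mem_fromG, Finset.mem_image]
  constructor
  · rintro ⟨a, b, h, hab⟩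
    have h1 : G.Adj (φ.symm a) (φ.symm b) := by
      rw [← φ.map_adj_iff]
      simpa using hab
    refine ⟨⟨{φ.symm a, φ.symm b}, Finset.card_pair h1.ne⟩,
      (mem_fromG _ _).2 ⟨_, _, rfl, h1⟩, ?_⟩
    apply Subtype.ext
    show ({φ.symm a, φ.symm b} : Finset (Fin n)).map φ.toEquiv.toEmbedding = e.1
    rw [h, Finset.map_insert, Finset.map_singleton]
    simp
  · rintro ⟨e', he', rfl⟩
    rw [mem_fromG] at he'
    obtain ⟨a, b, h, hab⟩ := he'
    refine ⟨φ a, φ b, ?_, φ.map_adj_iff.2 hab⟩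
    show e'.1.map φ.toEquiv.toEmbedding = _
    rw [h, Finset.map_insert, Finset.map_singleton]
    rfl

lemma graph_to_hyper {P : Set (SimpleGraph (Fin n))} (hP : GraphProperty P) :
    HypergraphProperty {H : Finset (Edge n 2) | toG H ∈ P} := by
  obtain ⟨h1, h2, h3, h4⟩ := hP
  refine ⟨fun s H hH => h1 _ _ hH (iso_image s H), fun H H' hHH' hH => h2 (toG_mono hHH') hH, ?_, ?_⟩
  · obtain ⟨G, hG⟩ := h3
    refine ⟨fromG G, ?_⟩
    show toG (fromG G) ∈ P
    rw [toG_fromG]
    exact hG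
  · intro h
    apply h4
    rw [Set.eq_univ_iff_forall] at h ⊢
    intro G
    have h5 := h (fromG G)
    change toG (fromG G) ∈ P at h5
    rwa [toG_fromG] at h5

lemma hyper_to_graph {Q : Set (Finset (Edge n 2))} (hQ : HypergraphProperty Q) :
    GraphProperty {G : SimpleGraph (Fin n) | fromG G ∈ Q} := by
  obtain ⟨h1, h2, h3, h4⟩ := hQ
  refine ⟨?_, fun G G' hGG' hG => h2 (fromG_mono hGG') hG, ?_, ?_⟩
  · rintro G G' hG ⟨φ⟩
    show fromG G' ∈ Q
    rw [fromG_iso φ]
    exact h1 _ _ hG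
  · obtain ⟨H, hH⟩ := h3
    refine ⟨toG H, ?_⟩
    show fromG (toG H) ∈ Q
    rw [fromG_toG]
    exact hH
  · intro h
    apply h4
    rw [Set.eq_univ_iff_forall] at h ⊢
    intro H
    have h5 := h (toG H)
    change fromG (toG H) ∈ Q at h5
    rwa [fromG_toG] at h5

lemma graphProb_from (Q : Set (Finset (Edge n 2))) :
    graphProb {G : SimpleGraph (Fin n) | fromG G ∈ Q} = prob Q := by
  rw [graphProb_eq]
  congr 1
  ext H
  change fromG (toG H) ∈ Q ↔ H ∈ Q
  rw [fromG_toG]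

end graph

/-- Q2, both bounds -/
theorem q2 (r : ℕ) (hr : 2 ≤ r) (ε : ℝ) (h0 : 0 < ε) (h1 : ε < 1 / 2) :
    ∃ c C : ℝ, 0 < c ∧ 0 < C ∧
      (∀ n : ℕ, r ≤ n → ∀ P : Set (Finset {e : Finset (Fin n) // e.card = r}),
        HypergraphProperty P →
          width ε (prob P) ≤ C * Real.log n ^ (-((r : ℝ) / ((r : ℝ) - 1)))) ∧
      ∃ n0 : ℕ, ∀ n : ℕ, n0 ≤ n → ∃ P : Set (Finset {e : Finset (Fin n) // e.card = r}),
        HypergraphProperty P ∧
          c * Real.log n ^ (-((r : ℝ) / ((r : ℝ) - 1))) ≤ width ε (prob P) := by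
  obtain ⟨C, hC, hup⟩ := hyper_upper hr
  obtain ⟨c, hc, n0, hlow⟩ := hyper_lower hr h0 h1
  have hlog : 0 < Real.log ((1 - ε) / ε) := by
    apply Real.log_pos
    rw [lt_div_iff₀ h0]
    linarith only [h1]
  refine ⟨c, C * Real.log ((1 - ε) / ε), hc, by positivity, ?_, n0, ?_⟩
  · intro n hn P hP
    exact hup n hn P hP.1 hP.2.1 hP.2.2.1 hP.2.2.2 ε h0 h1
  · intro n hn
    obtain ⟨P, e1, e2, e3, e4, e5⟩ := hlow n hn
    exact ⟨P, ⟨e1, e2, e3, e4⟩, e5⟩

lemma rpow_two_case (x : ℝ) (hx : 0 ≤ x) :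
    x ^ (-(((2 : ℕ) : ℝ) / (((2 : ℕ) : ℝ) - 1))) = 1 / x ^ 2 := by
  have : (((2 : ℕ) : ℝ) / (((2 : ℕ) : ℝ) - 1)) = 2 := by norm_num
  rw [this, Real.rpow_neg hx, Real.rpow_two, one_div]

/-- Q1, both bounds -/
theorem q1 (ε : ℝ) (h0 : 0 < ε) (h1 : ε < 1 / 2) :
    ∃ c C : ℝ, 0 < c ∧ 0 < C ∧
      (∀ n : ℕ, 2 ≤ n → ∀ P : Set (SimpleGraph (Fin n)), GraphProperty P →
          width ε (graphProb P) ≤ C / Real.log n ^ 2) ∧
      ∃ n0 : ℕ, ∀ n : ℕ, n0 ≤ n → ∃ P : Set (SimpleGraph (Fin n)), GraphProperty P ∧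
          c / Real.log n ^ 2 ≤ width ε (graphProb P) := by
  obtain ⟨c, C, hc, hC, hup, n0, hlow⟩ := q2 2 le_rfl ε h0 h1
  refine ⟨c, C, hc, hC, ?_, n0, ?_⟩
  · intro n hn P hP
    have h2 := hup n hn _ (graph_to_hyper hP)
    rw [rpow_two_case _ (Real.log_natCast_nonneg n), mul_one_div, ← graphProb_eq] at h2
    exact h2
  · intro n hn
    obtain ⟨Q, hQ, h2⟩ := hlow n hn
    refine ⟨_, hyper_to_graph hQ, ?_⟩
    rw [graphProb_from]
    rw [rpow_two_case _ (Real.log_natCast_nonneg n), mul_one_div] at h2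
    exact h2

end Vale.Agent.P063.H868
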