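import Vale.Agent.P063.H868.Multi

/-!
# Choice of the parameters
-/

set_option autoImplicit false
set_option linter.unusedSectionVars false

namespace Vale.Agent.P063.H868

open Finset Vale.Agent.P063

section infl

variable {r : ℕ} {n : Fin r → ℕ}

/-- `(∏ log n_i)^(-1/(r-1)) + ∑ n_i^(-1/12)` -/
noncomputable def Theta {r : ℕ} (n : Fin r → ℕ) : ℝ :=
  (∏ i, Real.log (n i)) ^ (-(1 / ((r : ℝ) - 1))) + ∑ i, (n i : ℝ) ^ (-(1 / 12 : ℝ))

lemma theta_first_nonneg (n : Fin r → ℕ) :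
    0 ≤ (∏ i, Real.log (n i)) ^ (-(1 / ((r : ℝ) - 1))) :=
  Real.rpow_nonneg (Finset.prod_nonneg fun _ _ => Real.log_natCast_nonneg _) _

lemma le_theta (n : Fin r → ℕ) (i : Fin r) : (n i : ℝ) ^ (-(1 / 12 : ℝ)) ≤ Theta n := by
  have h1 := Finset.single_le_sum (f := fun i => (n i : ℝ) ^ (-(1 / 12 : ℝ)))
    (fun i _ => Real.rpow_nonneg (Nat.cast_nonneg _) _) (Finset.mem_univ i)
  have h2 := theta_first_nonneg n
  unfold Theta
  linarith only [h1, h2]

lemma theta_nonneg (n : Fin r → ℕ) : 0 ≤ Theta n :=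
  add_nonneg (theta_first_nonneg n)
    (Finset.sum_nonneg fun _ _ => Real.rpow_nonneg (Nat.cast_nonneg _) _)

/-- Poincaré -/
lemma poincare {ι : Type*} [Fintype ι] [DecidableEq ι] {p : ℝ} (h0 : 0 < p) (h1 : p < 1)
    (f : (ι → Bool) → ℝ) (hf : ∀ x, f x = 0 ∨ f x = 1) :
    Ex p f - (Ex p f) ^ 2 ≤ ∑ S : Finset ι, (S.card : ℝ) * fc p f S ^ 2 := by
  rw [var_eq' h0 h1 f hf]
  calc ∑ S ∈ Finset.univ.filter (fun S : Finset ι => S.Nonempty), fc p f S ^ 2
      ≤ ∑ S ∈ Finset.univ.filter (fun S : Finset ι => S.Nonempty),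
        (S.card : ℝ) * fc p f S ^ 2 := by
        refine Finset.sum_le_sum fun S hS => ?_
        rw [Finset.mem_filter] at hS
        have h2 : (1 : ℝ) ≤ S.card := by exact_mod_cast hS.2.card_pos
        exact le_mul_of_one_le_left (sq_nonneg _) h2
    _ ≤ _ := Finset.sum_le_sum_of_subset_of_nonneg (Finset.subset_univ _) fun S _ _ =>
          mul_nonneg (Nat.cast_nonneg _) (sq_nonneg _)

/-- estimates for one side of size at least `2^24` -/
lemma one_side {N : ℕ} (hN : 2 ^ 24 ≤ N) {θ : ℝ} (hθ : (N : ℝ) ^ (-(1 / 12 : ℝ)) ≤ θ)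
    {K : ℝ} (hK : 1 ≤ Real.log K) (hK0 : 0 < K) :
    ∃ d : ℕ, 4 * K ^ d ≤ θ ^ 3 * (Nat.sqrt N : ℝ) ∧
      Real.log N / (8 * Real.log K) ≤ (d : ℝ) + 1 ∧
      2 / (Nat.sqrt N : ℝ) ≤ 4 * (N : ℝ) ^ (-(1 / 12 : ℝ)) := by
  have hNr : (2 : ℝ) ^ 24 ≤ N := by exact_mod_cast hN
  have hNpos : (0 : ℝ) < N := lt_of_lt_of_le (by norm_num) hNr
  set Λ := Real.log N with hΛ
  have hΛ24 : 24 * Real.log 2 ≤ Λ := by
    have h := Real.log_le_log (by norm_num) hNr
    rw [Real.log_pow] at h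
    exact_mod_cast h
  have hlog2 := Real.log_two_gt_d9
  have hΛ16 : 16 ≤ Λ := by linarith only [hΛ24, hlog2]
  have hexpΛ : Real.exp Λ = N := Real.exp_log hNpos
  -- powers of N
  have hpow : ∀ a : ℝ, (N : ℝ) ^ a = Real.exp (Λ * a) := fun a => Real.rpow_def_of_pos hNpos a
  have h8 : (8 : ℝ) ≤ Real.exp (Λ / 8) := by
    have h9 : Real.log 8 ≤ Λ / 8 := by
      have h10 : Real.log 8 = 3 * Real.log 2 := by
        rw [show (8 : ℝ) = 2 ^ 3 by norm_num, Real.log_pow]
        norm_num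
      rw [h10]
      linarith only [hΛ24]
    calc (8 : ℝ) = Real.exp (Real.log 8) := (Real.exp_log (by norm_num)).symm
      _ ≤ _ := Real.exp_le_exp.2 h9
  have hsqrt : Real.sqrt N = Real.exp (Λ / 2) := by
    rw [Real.sqrt_eq_rpow, hpow]
    congr 1
    ring
  have hE2 : (2 : ℝ) ≤ Real.exp (Λ / 2) := by
    have := Real.add_one_le_exp (Λ / 2)
    linarith only [this, hΛ16]
  have hLlow : Real.exp (Λ / 2) / 2 ≤ (Nat.sqrt N : ℝ) := by
    have h10 : Real.sqrt N < Nat.sqrt N + 1 := Real.real_sqrt_lt_nat_sqrt_succ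
    rw [hsqrt] at h10
    linarith only [h10, hE2]
  have hLpos : (0 : ℝ) < (Nat.sqrt N : ℝ) := by linarith only [hE2, hLlow]
  have hθ0 : 0 < (N : ℝ) ^ (-(1 / 12 : ℝ)) := Real.rpow_pos_of_pos hNpos _
  have hθ3 : Real.exp (-(Λ / 4)) ≤ θ ^ 3 := by
    calc Real.exp (-(Λ / 4)) = ((N : ℝ) ^ (-(1 / 12 : ℝ))) ^ 3 := by
          rw [hpow, ← Real.exp_nat_mul]
          congr 1
          push_cast
          ring
      _ ≤ θ ^ 3 := pow_le_pow_left₀ hθ0.le hθ 3
  refine ⟨⌊Λ / 8 / Real.log K⌋₊, ?_, ?_, ?_⟩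
  · have hd : ((⌊Λ / 8 / Real.log K⌋₊ : ℕ) : ℝ) ≤ Λ / 8 / Real.log K :=
      Nat.floor_le (div_nonneg (by linarith only [hΛ16]) (by linarith only [hK]))
    set d := ⌊Λ / 8 / Real.log K⌋₊ with hd0
    rw [le_div_iff₀ (by linarith only [hK])] at hd
    have hp : K ^ d ≤ Real.exp (Λ / 8) := by
      rw [← Real.exp_log hK0, ← Real.exp_nat_mul]
      exact Real.exp_le_exp.2 hd
    have e1 : Real.exp (Λ / 8) * Real.exp (Λ / 8) = Real.exp (-(Λ / 4)) * Real.exp (Λ / 2) := by
      rw [← Real.exp_add, ← Real.exp_add]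
      congr 1
      ring
    have e2 : 0 < Real.exp (Λ / 8) := Real.exp_pos _
    calc 4 * K ^ d ≤ 4 * Real.exp (Λ / 8) := by linarith only [hp]
      _ = 8 * Real.exp (Λ / 8) / 2 := by ring
      _ ≤ Real.exp (Λ / 8) * Real.exp (Λ / 8) / 2 := by
          apply div_le_div_of_nonneg_right _ (by norm_num)
          exact mul_le_mul_of_nonneg_right h8 e2.le
      _ = Real.exp (-(Λ / 4)) * (Real.exp (Λ / 2) / 2) := by rw [e1]; ring
      _ ≤ θ ^ 3 * (Nat.sqrt N : ℝ) :=
          mul_le_mul hθ3 hLlow (by positivity) (le_trans (Real.exp_pos _).le hθ3)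
  · have hd : Λ / 8 / Real.log K < ((⌊Λ / 8 / Real.log K⌋₊ : ℕ) : ℝ) + 1 := Nat.lt_floor_add_one _
    rw [← div_div]
    exact hd.le
  · have h3 : 2 / (Nat.sqrt N : ℝ) ≤ 2 / (Real.exp (Λ / 2) / 2) :=
      div_le_div_of_nonneg_left (by norm_num) (by positivity) hLlow
    have h4 : 2 / (Real.exp (Λ / 2) / 2) = 4 * Real.exp (-(Λ / 2)) := by
      rw [Real.exp_neg]
      field_simp
      norm_num
    have h5 : Real.exp (-(Λ / 2)) ≤ (N : ℝ) ^ (-(1 / 12 : ℝ)) := by
      rw [hpow]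
      apply Real.exp_le_exp.2
      linarith only [hΛ16]
    rw [h4] at h3
    linarith only [h3, h5]

/-- **total influence, all sizes, all densities** -/
theorem minfl (hr : 2 ≤ r) (hn : ∀ i, 2 ≤ n i) {p : ℝ} (h0 : 0 < p) (h1 : p < 1)
    (f : (Cell n → Bool) → ℝ) (hf : ∀ x, f x = 0 ∨ f x = 1)
    (hinv : ∀ i (σ : Equiv.Perm (Fin (n i))) x, f (fun e => x (side i σ e)) = f x) :
    p * (1 - p) * (Ex p f - (Ex p f) ^ 2)
      ≤ 1024 * r * Theta n * ∑ S : Finset (Cell n), (S.card : ℝ) * fc p f S ^ 2 := by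
  have hs : 0 < p * (1 - p) := mul_pos h0 (by linarith only [h1])
  have hs4 : p * (1 - p) ≤ 1 / 4 := by nlinarith only [sq_nonneg (p - 1 / 2)]
  have hr2 : (2 : ℝ) ≤ r := by exact_mod_cast hr
  have hT : 0 ≤ ∑ S : Finset (Cell n), (S.card : ℝ) * fc p f S ^ 2 :=
    Finset.sum_nonneg fun S _ => mul_nonneg (Nat.cast_nonneg _) (sq_nonneg _)
  have hΘ := theta_nonneg n
  by_cases hbig : ∀ i, 2 ^ 24 ≤ n i
  · -- all sides large
    set K := 4 / (p * (1 - p)) with hK
    have hKpos : 0 < K := by positivity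
    have hK16 : 16 ≤ K := by
      rw [hK, le_div_iff₀ hs]; linarith only [hs4]
    have hpK : p * (1 - p) = 4 / K := by rw [hK]; field_simp
    have hlogK : 1 ≤ Real.log K := by
      rw [Real.le_log_iff_exp_le hKpos]
      have := Real.exp_one_lt_d9
      linarith only [hK16, this]
    choose d hd1 hd2 hd3 using fun i => one_side (hbig i) (le_theta n i) hlogK hKpos
    have hΛpos : ∀ i, 0 < Real.log (n i) := fun i => Real.log_pos (by
      have : (2 : ℝ) ≤ n i := by exact_mod_cast hn i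
      linarith only [this])
    have hprod : 0 < ∏ i, Real.log (n i) := Finset.prod_pos fun i _ => hΛpos i
    set s : ℝ := (∏ i, Real.log (n i)) ^ (1 / ((r : ℝ) - 1)) with hsdef
    have hs0 : 0 < s := Real.rpow_pos_of_pos hprod _
    have hcast : ((r - 1 : ℕ) : ℝ) = (r : ℝ) - 1 := by
      rw [Nat.cast_sub (by omega)]; simp only [Nat.cast_one]
    have hspow : s ^ (r - 1) = ∏ i, Real.log (n i) := by
      rw [hsdef, one_div, ← hcast]
      exact Real.rpow_inv_natCast_pow hprod.le (by omega)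
    have hsinv : 1 / s ≤ Theta n := by
      have h2 : 1 / s = (∏ i, Real.log (n i)) ^ (-(1 / ((r : ℝ) - 1))) := by
        rw [Real.rpow_neg hprod.le, one_div]
      rw [h2]
      unfold Theta
      have h3 : 0 ≤ ∑ i, (n i : ℝ) ^ (-(1 / 12 : ℝ)) :=
        Finset.sum_nonneg fun i _ => Real.rpow_nonneg (Nat.cast_nonneg _) _
      linarith only [h3]
    set k : ℝ := 8 * Real.log K with hk
    have hk1 : 1 ≤ k := by rw [hk]; linarith only [hlogK]
    have hk0 : 0 < k := by linarith only [hk1]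
    have hM : 0 < s / k ^ 2 := by positivity
    have hM' : ∀ S : Finset (Cell n), S.Nonempty →
        (∀ i, ∀ v ∈ S.image (fun e => e i), d i < (S.filter (fun e => e i = v)).card) →
        s / k ^ 2 ≤ S.card := by
      intro S hS hdeg
      have h2 := card_cells hr d S hS hdeg
      have h3 : (s / k ^ 2) ^ (r - 1) ≤ (S.card : ℝ) ^ (r - 1) := by
        refine le_trans ?_ h2
        have h4 : ∏ i, (Real.log (n i) / k) ≤ ∏ i, ((d i : ℝ) + 1) :=
          Finset.prod_le_prod (fun i _ => div_nonneg (hΛpos i).le hk0.le) fun i _ => hd2 i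
        refine le_trans ?_ h4
        rw [Finset.prod_div_distrib, Finset.prod_const, Finset.card_univ, Fintype.card_fin,
          div_pow, hspow, ← pow_mul]
        apply div_le_div_of_nonneg_left hprod.le (by positivity)
        exact pow_le_pow_right₀ hk1 (by omega)
      exact (pow_le_pow_iff_left₀ hM.le (Nat.cast_nonneg _) (by omega)).1 h3
    have hL1 : ∀ i, 1 ≤ Nat.sqrt (n i) := fun i => by
      rw [Nat.le_sqrt]
      have := hn i
      omega
    have hcore := mcore (L := fun i => Nat.sqrt (n i)) (d := d) hL1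
      (fun i => Nat.sqrt_le (n i)) h0 h1 f hf hinv (Theta n) hΘ hd1 (s / k ^ 2) hM hM'
    set T := ∑ S : Finset (Cell n), (S.card : ℝ) * fc p f S ^ 2 with hTdef
    have hB : p * (1 - p) * (2 * r * Theta n + (∑ i, 2 / (Nat.sqrt (n i) : ℝ))
        + 1 / (s / k ^ 2)) ≤ 1024 * r * Theta n := by
      have t1 : p * (1 - p) * (2 * r * Theta n) ≤ r / 2 * Theta n := by
        calc p * (1 - p) * (2 * r * Theta n) ≤ 1 / 4 * (2 * r * Theta n) :=
              mul_le_mul_of_nonneg_right hs4 (by positivity)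
          _ = _ := by ring
      have t2 : p * (1 - p) * (∑ i, 2 / (Nat.sqrt (n i) : ℝ)) ≤ Theta n := by
        have h2 : ∑ i, 2 / (Nat.sqrt (n i) : ℝ) ≤ 4 * Theta n := by
          calc ∑ i, 2 / (Nat.sqrt (n i) : ℝ)
              ≤ ∑ i, 4 * (n i : ℝ) ^ (-(1 / 12 : ℝ)) := Finset.sum_le_sum fun i _ => hd3 i
            _ = 4 * ∑ i, (n i : ℝ) ^ (-(1 / 12 : ℝ)) := by rw [Finset.mul_sum]
            _ ≤ 4 * Theta n := by
                have := theta_first_nonneg n
                unfold Theta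
                linarith only [this]
        calc p * (1 - p) * (∑ i, 2 / (Nat.sqrt (n i) : ℝ))
            ≤ p * (1 - p) * (4 * Theta n) := mul_le_mul_of_nonneg_left h2 hs.le
          _ ≤ 1 / 4 * (4 * Theta n) := mul_le_mul_of_nonneg_right hs4 (by positivity)
          _ = _ := by ring
      have t3 : p * (1 - p) * (1 / (s / k ^ 2)) ≤ 1024 * Theta n := by
        have e1 : Real.log K ^ 2 ≤ 4 * K := log_sq_le hKpos (by linarith only [hlogK])
        rw [hpK, one_div_div]
        calc 4 / K * (k ^ 2 / s) = (256 * Real.log K ^ 2 / K) * (1 / s) := by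
              rw [hk]; field_simp; norm_num
          _ ≤ 1024 * (1 / s) := by
              apply mul_le_mul_of_nonneg_right _ (by positivity)
              rw [div_le_iff₀ hKpos]
              linarith only [e1]
          _ ≤ 1024 * Theta n := by linarith only [hsinv]
      calc _ = p * (1 - p) * (2 * r * Theta n) + p * (1 - p) * (∑ i, 2 / (Nat.sqrt (n i) : ℝ))
            + p * (1 - p) * (1 / (s / k ^ 2)) := by ring
        _ ≤ r / 2 * Theta n + Theta n + 1024 * Theta n := by linarith only [t1, t2, t3]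
        _ = (r / 2 + 1025) * Theta n := by ring
        _ ≤ 1024 * r * Theta n := by
            apply mul_le_mul_of_nonneg_right _ hΘ
            linarith only [hr2]
    calc p * (1 - p) * (Ex p f - (Ex p f) ^ 2)
        ≤ p * (1 - p) * ((2 * r * Theta n + (∑ i, 2 / (Nat.sqrt (n i) : ℝ))
          + 1 / (s / k ^ 2)) * T) := mul_le_mul_of_nonneg_left hcore hs.le
      _ = (p * (1 - p) * (2 * r * Theta n + (∑ i, 2 / (Nat.sqrt (n i) : ℝ))
          + 1 / (s / k ^ 2))) * T := by ring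
      _ ≤ _ := mul_le_mul_of_nonneg_right hB hT
  · -- one side is small
    push Not at hbig
    obtain ⟨i, hi⟩ := hbig
    have h4 : 1 / 4 ≤ Theta n := by
      refine le_trans ?_ (le_theta n i)
      have hni : (0 : ℝ) < n i := by
        have := hn i
        have : 0 < n i := by omega
        exact_mod_cast this
      have h5 : (n i : ℝ) ≤ 2 ^ 24 := by exact_mod_cast hi.le
      calc (1 / 4 : ℝ) = ((2 : ℝ) ^ (24 : ℝ)) ^ (-(1 / 12 : ℝ)) := by
            rw [← Real.rpow_mul (by norm_num)]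
            norm_num
        _ ≤ (n i : ℝ) ^ (-(1 / 12 : ℝ)) := by
            apply Real.rpow_le_rpow_of_nonpos hni _ (by norm_num)
            calc (n i : ℝ) ≤ 2 ^ 24 := h5
              _ = (2 : ℝ) ^ (24 : ℝ) := by norm_num
    have hP := poincare h0 h1 f hf
    set T := ∑ S : Finset (Cell n), (S.card : ℝ) * fc p f S ^ 2 with hTdef
    calc p * (1 - p) * (Ex p f - (Ex p f) ^ 2) ≤ p * (1 - p) * T :=
          mul_le_mul_of_nonneg_left hP hs.le
      _ ≤ 1 / 4 * T := mul_le_mul_of_nonneg_right hs4 hT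
      _ ≤ 1024 * r * Theta n * T := by
          apply mul_le_mul_of_nonneg_right _ hT
          have h6 : Theta n ≤ 1024 * r * Theta n := by
            apply le_mul_of_one_le_left hΘ
            linarith only [hr2]
          linarith only [h4, h6]

end infl

end Vale.Agent.P063.H868
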