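import Vale.Agent.P063.H868.Proj

/-!
# Total influence of properties of `r`-partite hypergraphs with sides of different sizes
-/

set_option autoImplicit false
set_option linter.unusedSectionVars false

namespace Vale.Agent.P063.H868

open Finset Vale.Agent.P063

section gen

variable {ι : Type*} [Fintype ι] [DecidableEq ι]

lemma var_eq' {p : ℝ} (h0 : 0 < p) (h1 : p < 1)
    (f : (ι → Bool) → ℝ) (hf : ∀ x, f x = 0 ∨ f x = 1) :
    Ex p f - (Ex p f) ^ 2
      = ∑ S ∈ Finset.univ.filter (fun S : Finset ι => S.Nonempty), fc p f S ^ 2 := by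
  have e1 : Ex p f = Ex p (fun x => f x ^ 2) := by
    congr 1
    funext x
    rcases hf x with h | h <;> simp [h]
  have e2 : Ex p (fun x => f x ^ 2) = ∑ S : Finset ι, fc p f S ^ 2 :=
    parseval h0 h1 f
  have e3 : ∑ S : Finset ι, fc p f S ^ 2
      = (∑ S ∈ Finset.univ.filter (fun S : Finset ι => S.Nonempty), fc p f S ^ 2)
        + ∑ S ∈ Finset.univ.filter (fun S : Finset ι => ¬ S.Nonempty),
          fc p f S ^ 2 := by
    rw [Finset.sum_filter_add_sum_filter_not]
  have e4 : ∑ S ∈ Finset.univ.filter (fun S : Finset ι => ¬ S.Nonempty),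
          fc p f S ^ 2 = (Ex p f) ^ 2 := by
    have : Finset.univ.filter (fun S : Finset ι => ¬ S.Nonempty) = {∅} := by
      ext S
      simp [Finset.not_nonempty_iff_eq_empty]
    rw [this, Finset.sum_singleton, fc_empty]
  rw [← e4]
  nth_rewrite 1 [e1]
  rw [e2, e3]
  ring

end gen

section multi

variable {r : ℕ} {n : Fin r → ℕ}

/-- cells of the box `[n_1] × … × [n_r]` -/
abbrev Cell {r : ℕ} (n : Fin r → ℕ) : Type := (i : Fin r) → Fin (n i)

/-- permutation of one side -/
def side (i : Fin r) (σ : Equiv.Perm (Fin (n i))) : Equiv.Perm (Cell n) where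
  toFun e := Function.update e i (σ (e i))
  invFun e := Function.update e i (σ.symm (e i))
  left_inv e := by simp
  right_inv e := by simp

lemma side_apply (i : Fin r) (σ : Equiv.Perm (Fin (n i))) (e : Cell n) :
    side i σ e = Function.update e i (σ (e i)) := rfl

lemma lift_side {f : (Cell n → Bool) → ℝ} (i : Fin r)
    (hinv : ∀ (σ : Equiv.Perm (Fin (n i))) x, f (fun e => x (side i σ e)) = f x) :
    Lift (fun e : Cell n => e i) (side i) f where
  map σ e := by rw [side_apply, Function.update_self]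
  fix σ e h := by rw [side_apply, h, Function.update_eq_self]
  inv := hinv

/-- A nonempty set of cells in which all degrees are large is large. -/
lemma card_cells (hr : 2 ≤ r) (d : Fin r → ℕ) (S : Finset (Cell n)) (hS : S.Nonempty)
    (hdeg : ∀ i, ∀ v ∈ S.image (fun e => e i),
      d i < (S.filter (fun e => e i = v)).card) :
    ∏ i, ((d i : ℝ) + 1) ≤ (S.card : ℝ) ^ (r - 1) := by
  -- |S| ≤ ∏ |V_i|
  have h1 : S.card ≤ ∏ i, (S.image (fun e => e i)).card := by
    rw [← Fintype.card_piFinset]
    apply Finset.card_le_card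
    intro e he
    rw [Fintype.mem_piFinset]
    intro i
    exact Finset.mem_image_of_mem (fun e : Cell n => e i) he
  -- (d_i + 1) |V_i| ≤ |S|
  have h2 : ∀ i, (S.image (fun e => e i)).card * (d i + 1) ≤ S.card := by
    intro i
    have h3 : S.card = ∑ v ∈ S.image (fun e => e i), (S.filter (fun e => e i = v)).card :=
      Finset.card_eq_sum_card_image (fun e : Cell n => e i) S
    rw [h3, ← smul_eq_mul, ← Finset.sum_const]
    exact Finset.sum_le_sum fun v hv => hdeg i v hv
  have hpos : 0 < S.card := hS.card_pos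
  have h4 : (∏ i, (S.image (fun e => e i)).card) * ∏ i, (d i + 1) ≤ S.card ^ r := by
    rw [← Finset.prod_mul_distrib]
    calc ∏ i, ((S.image (fun e => e i)).card * (d i + 1)) ≤ ∏ _i : Fin r, S.card :=
          Finset.prod_le_prod' fun i _ => h2 i
      _ = S.card ^ r := by simp
  have h5 : S.card * ∏ i, (d i + 1) ≤ S.card * S.card ^ (r - 1) := by
    have e : S.card * S.card ^ (r - 1) = S.card ^ r := by
      obtain ⟨q, rfl⟩ : ∃ q, r = q + 1 := ⟨r - 1, by omega⟩
      simp only [Nat.add_sub_cancel]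
      ring
    rw [e]
    exact le_trans (Nat.mul_le_mul_right _ h1) h4
  have h6 := Nat.le_of_mul_le_mul_left h5 hpos
  exact_mod_cast h6

/-- The main spectral inequality. -/
theorem mcore {L d : Fin r → ℕ} (hL1 : ∀ i, 1 ≤ L i) (hL : ∀ i, L i * L i ≤ n i)
    {p : ℝ} (h0 : 0 < p) (h1 : p < 1)
    (f : (Cell n → Bool) → ℝ) (hf : ∀ x, f x = 0 ∨ f x = 1)
    (hinv : ∀ i (σ : Equiv.Perm (Fin (n i))) x, f (fun e => x (side i σ e)) = f x)
    (θ : ℝ) (hθ : 0 ≤ θ) (hθ' : ∀ i, 4 * (4 / (p * (1 - p))) ^ (d i) ≤ θ ^ 3 * L i)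
    (M : ℝ) (hM : 0 < M)
    (hM' : ∀ S : Finset (Cell n), S.Nonempty →
      (∀ i, ∀ v ∈ S.image (fun e => e i), d i < (S.filter (fun e => e i = v)).card) →
      M ≤ S.card) :
    Ex p f - (Ex p f) ^ 2
      ≤ (2 * r * θ + (∑ i, 2 / (L i : ℝ)) + 1 / M)
        * ∑ S : Finset (Cell n), (S.card : ℝ) * fc p f S ^ 2 := by
  have hLpos : ∀ i, (0 : ℝ) < L i := fun i => by exact_mod_cast hL1 i
  set I := ∑ S : Finset (Cell n), (S.card : ℝ) * fc p f S ^ 2 with hI
  have hsL : 0 ≤ ∑ i, 2 / (L i : ℝ) := Finset.sum_nonneg fun i _ => by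
    have := hLpos i; positivity
  have hM1 : 0 ≤ 1 / M := by positivity
  have hc0 : 0 ≤ (∑ i, 2 / (L i : ℝ)) + 1 / M := by linarith only [hsL, hM1]
  have hnn0 : ∀ S : Finset (Cell n), (0 : ℝ) ≤ ∑ i, ∑ v : Fin (n i),
      if S ∈ PLow (fun e : Cell n => e i) (L i) (d i) v then fc p f S ^ 2 else 0 := by
    intro S
    refine Finset.sum_nonneg fun i _ => Finset.sum_nonneg fun v _ => ?_
    split_ifs
    · exact sq_nonneg _
    · exact le_refl _
  have h40 : ∀ S : Finset (Cell n),
      0 ≤ ((∑ i, 2 / (L i : ℝ)) + 1 / M) * ((S.card : ℝ) * fc p f S ^ 2) := fun S =>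
    mul_nonneg hc0 (mul_nonneg (Nat.cast_nonneg _) (sq_nonneg _))
  have hpt : ∀ S ∈ Finset.univ.filter (fun S : Finset (Cell n) => S.Nonempty),
      fc p f S ^ 2 ≤ (∑ i, ∑ v : Fin (n i),
        if S ∈ PLow (fun e : Cell n => e i) (L i) (d i) v then fc p f S ^ 2 else 0)
        + ((∑ i, 2 / (L i : ℝ)) + 1 / M) * ((S.card : ℝ) * fc p f S ^ 2) := by
    intro S hS
    rw [Finset.mem_filter] at hS
    have hnn := hnn0 S
    have h4 := h40 S
    by_cases hc1 : ∃ i, ∃ v : Fin (n i), S ∈ PLow (fun e : Cell n => e i) (L i) (d i) v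
    · obtain ⟨i, v, hv⟩ := hc1
      have h3 : fc p f S ^ 2 ≤ ∑ v : Fin (n i),
          if S ∈ PLow (fun e : Cell n => e i) (L i) (d i) v then fc p f S ^ 2 else 0 := by
        have := Finset.single_le_sum (s := (Finset.univ : Finset (Fin (n i))))
          (f := fun v => if S ∈ PLow (fun e : Cell n => e i) (L i) (d i) v
            then fc p f S ^ 2 else 0)
          (fun v _ => by
            show 0 ≤ ite _ _ _
            split_ifs
            · exact sq_nonneg _
            · exact le_refl _) (Finset.mem_univ v)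
        simpa only [ge_iff_le, hv, ↓reduceIte] using this
      have h5 := Finset.single_le_sum (s := (Finset.univ : Finset (Fin r)))
          (f := fun i => ∑ v : Fin (n i),
            if S ∈ PLow (fun e : Cell n => e i) (L i) (d i) v then fc p f S ^ 2 else 0)
          (fun i _ => Finset.sum_nonneg fun v _ => by
            show 0 ≤ ite _ _ _
            split_ifs
            · exact sq_nonneg _
            · exact le_refl _) (Finset.mem_univ i)
      have h6 := h3.trans h5
      linarith only [h4, h6]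
    · have h6 : 1 ≤ ((∑ i, 2 / (L i : ℝ)) + 1 / M) * (S.card : ℝ) := by
        push Not at hc1
        have hcard : (0 : ℝ) ≤ S.card := Nat.cast_nonneg _
        by_cases hc2 : ∀ i, 2 * (S.image (fun e : Cell n => e i)).card ≤ L i
        · have h7 : M ≤ S.card := by
            refine hM' S hS.2 ?_
            intro i v hv
            by_contra hcon
            rw [not_lt] at hcon
            refine hc1 i v ?_
            simp only [PLow, Finset.mem_filter, Finset.mem_univ, true_and]
            exact ⟨hv, hcon, hc2 i⟩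
          have h8 : 1 ≤ 1 / M * (S.card : ℝ) := by
            rw [one_div, inv_mul_eq_div, le_div_iff₀ hM]
            linarith only [h7]
          have h9 : 0 ≤ (∑ i, 2 / (L i : ℝ)) * (S.card : ℝ) := mul_nonneg hsL hcard
          linarith only [h8, h9]
        · push Not at hc2
          obtain ⟨i, hi⟩ := hc2
          have h7 : (L i : ℝ) ≤ 2 * S.card := by
            have h8 : L i ≤ 2 * S.card := by
              have : (S.image (fun e : Cell n => e i)).card ≤ S.card := Finset.card_image_le
              omega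
            exact_mod_cast h8
          have h8 : 1 ≤ 2 / (L i : ℝ) * (S.card : ℝ) := by
            rw [div_mul_eq_mul_div, le_div_iff₀ (hLpos i)]
            linarith only [h7]
          have h10 : 2 / (L i : ℝ) ≤ ∑ i, 2 / (L i : ℝ) :=
            Finset.single_le_sum (f := fun i => 2 / (L i : ℝ))
              (fun i _ => by have := hLpos i; positivity) (Finset.mem_univ i)
          have h11 := mul_le_mul_of_nonneg_right h10 hcard
          have h9 : 0 ≤ 1 / M * (S.card : ℝ) := mul_nonneg hM1 hcard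
          linarith only [h8, h9, h11]
      have h5 : fc p f S ^ 2
          ≤ ((∑ i, 2 / (L i : ℝ)) + 1 / M) * ((S.card : ℝ) * fc p f S ^ 2) := by
        calc fc p f S ^ 2 = 1 * fc p f S ^ 2 := by ring
          _ ≤ (((∑ i, 2 / (L i : ℝ)) + 1 / M) * (S.card : ℝ)) * fc p f S ^ 2 :=
            mul_le_mul_of_nonneg_right h6 (sq_nonneg _)
          _ = _ := by ring
      linarith only [hnn, h5]
  have hlow : ∀ i, ∑ v : Fin (n i), ∑ S ∈ PLow (fun e : Cell n => e i) (L i) (d i) v,
      fc p f S ^ 2 ≤ 2 * θ * I := fun i =>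
    plow_sum (hL1 i) (hL i) h0 h1 hf (lift_side i (hinv i)) θ hθ (hθ' i)
  have hswap : ∑ S : Finset (Cell n), (∑ i, ∑ v : Fin (n i),
        if S ∈ PLow (fun e : Cell n => e i) (L i) (d i) v then fc p f S ^ 2 else 0)
      = ∑ i, ∑ v : Fin (n i), ∑ S ∈ PLow (fun e : Cell n => e i) (L i) (d i) v,
        fc p f S ^ 2 := by
    rw [Finset.sum_comm]
    refine Finset.sum_congr rfl fun i _ => ?_
    rw [Finset.sum_comm]
    refine Finset.sum_congr rfl fun v _ => ?_
    rw [Finset.sum_ite_mem, Finset.univ_inter]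
  rw [var_eq' h0 h1 f hf]
  calc _ ≤ ∑ S ∈ Finset.univ.filter (fun S : Finset (Cell n) => S.Nonempty),
        ((∑ i, ∑ v : Fin (n i),
          if S ∈ PLow (fun e : Cell n => e i) (L i) (d i) v then fc p f S ^ 2 else 0)
        + ((∑ i, 2 / (L i : ℝ)) + 1 / M) * ((S.card : ℝ) * fc p f S ^ 2)) :=
        Finset.sum_le_sum hpt
    _ ≤ ∑ S : Finset (Cell n), ((∑ i, ∑ v : Fin (n i),
          if S ∈ PLow (fun e : Cell n => e i) (L i) (d i) v then fc p f S ^ 2 else 0)
        + ((∑ i, 2 / (L i : ℝ)) + 1 / M) * ((S.card : ℝ) * fc p f S ^ 2)) := by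
        refine Finset.sum_le_sum_of_subset_of_nonneg (Finset.subset_univ _) fun S _ _ => ?_
        exact add_nonneg (hnn0 S) (h40 S)
    _ = (∑ i, ∑ v : Fin (n i), ∑ S ∈ PLow (fun e : Cell n => e i) (L i) (d i) v,
          fc p f S ^ 2) + ((∑ i, 2 / (L i : ℝ)) + 1 / M) * I := by
        rw [Finset.sum_add_distrib, ← Finset.mul_sum, hswap]
    _ ≤ (∑ _i : Fin r, 2 * θ * I) + ((∑ i, 2 / (L i : ℝ)) + 1 / M) * I :=
        add_le_add (Finset.sum_le_sum fun i _ => hlow i) le_rfl
    _ = _ := by
        rw [Finset.sum_const, Finset.card_univ, Fintype.card_fin, nsmul_eq_mul]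
        ring

end multi

end Vale.Agent.P063.H868
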