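import Vale.Agent.P063.H291.Main

/-!
# Small degrees along one projection

`ι` is a finite set of coordinates, `π : ι → Fin N` a map such that every permutation `σ` of `Fin N`
lifts to a permutation `τ σ` of `ι` which preserves `f` and fixes the coordinates whose projection
is fixed by `σ`.
-/

set_option autoImplicit false
set_option linter.unusedSectionVars false

namespace Vale.Agent.P063.H868

open Finset Vale.Agent.P063

section proj

variable {ι : Type*} [Fintype ι] [DecidableEq ι] {N : ℕ}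

/-- coordinates over `X` -/
def PX (π : ι → Fin N) (X : Finset (Fin N)) : Finset ι := Finset.univ.filter (fun e => π e ∈ X)

/-- coordinates over `v` -/
def PV (π : ι → Fin N) (v : Fin N) : Finset ι := Finset.univ.filter (fun e => π e = v)

/-- nonempty sets of at most `d` coordinates, all over `v` -/
def PT (π : ι → Fin N) (d : ℕ) (v : Fin N) : Finset (Finset ι) :=
  Finset.univ.filter (fun T => T.Nonempty ∧ T.card ≤ d ∧ ∀ e ∈ T, π e = v)

/-- lifting of permutations -/
structure Lift (π : ι → Fin N) (τ : Equiv.Perm (Fin N) → Equiv.Perm ι)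
    (f : (ι → Bool) → ℝ) : Prop where
  map : ∀ σ e, π (τ σ e) = σ (π e)
  fix : ∀ σ e, σ (π e) = π e → τ σ e = e
  inv : ∀ σ x, f (fun e => x (τ σ e)) = f x

variable {π : ι → Fin N} {τ : Equiv.Perm (Fin N) → Equiv.Perm ι} {f : (ι → Bool) → ℝ}

lemma PT_weight_eq (p : ℝ) (hl : Lift π τ f) (d : ℕ) (X : Finset (Fin N)) (u v : Fin N)
    (hu : u ∈ X) (hv : v ∈ X) (x : ι → Bool) :
    ∑ T ∈ PT π d u, fc p (fun z => f (mix (PX π X) z x)) T ^ 2
      = ∑ T ∈ PT π d v, fc p (fun z => f (mix (PX π X) z x)) T ^ 2 := by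
  set σ : Equiv.Perm (Fin N) := Equiv.swap u v with hσ
  have hσX : ∀ a, σ a ∈ X ↔ a ∈ X := by
    intro a
    by_cases ha : a = u
    · subst ha; simp [hσ, hu, hv]
    · by_cases hb : a = v
      · subst hb; simp [hσ, hu, hv]
      · rw [hσ, Equiv.swap_apply_of_ne_of_ne ha hb]
  have hτX : ∀ e, τ σ e ∈ PX π X ↔ e ∈ PX π X := by
    intro e
    simp only [PX, Finset.mem_filter, Finset.mem_univ, true_and, hl.map, hσX]
  have hτfix : ∀ e, e ∉ PX π X → τ σ e = e := by
    intro e he
    simp only [PX, Finset.mem_filter, Finset.mem_univ, true_and] at he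
    apply hl.fix
    rw [hσ]
    exact Equiv.swap_apply_of_ne_of_ne (fun h => he (h ▸ hu)) (fun h => he (h ▸ hv))
  have hF : ∀ z : ι → Bool, f (mix (PX π X) (fun i => z (τ σ i)) x) = f (mix (PX π X) z x) := by
    intro z
    rw [← hl.inv σ (mix (PX π X) z x)]
    congr 1
    funext e
    by_cases he : e ∈ PX π X
    · have he' : τ σ e ∈ PX π X := (hτX e).2 he
      simp only [mix, he, he', if_true]
    · have he' : τ σ e = e := hτfix e he
      simp only [mix, he, he', if_false]
  have hfc := fc_relabel p (τ σ) (fun z => f (mix (PX π X) z x)) hF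
  refine Finset.sum_equiv (Equiv.finsetCongr (τ σ)) ?_ ?_
  · intro T
    simp only [PT, Finset.mem_filter, Finset.mem_univ, true_and, Equiv.finsetCongr_apply,
      Finset.map_nonempty, Finset.card_map]
    have hmem : ∀ e : ι, π (τ σ e) = v ↔ π e = u := by
      intro e
      have hσu : σ u = v := by simp [hσ]
      rw [hl.map, ← hσu]
      exact ⟨fun h => σ.injective h, fun h => by rw [h]⟩
    constructor
    · rintro ⟨h1, h2, h3⟩
      refine ⟨h1, h2, ?_⟩
      intro e he
      rw [Finset.mem_map] at he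
      obtain ⟨e', he', rfl⟩ := he
      exact (hmem e').2 (h3 e' he')
    · rintro ⟨h1, h2, h3⟩
      refine ⟨h1, h2, ?_⟩
      intro e he
      exact (hmem e).1 (h3 _ (Finset.mem_map_of_mem _ he))
  · intro T _
    rw [Equiv.finsetCongr_apply, hfc]

lemma PT_weight_le {p : ℝ} (h0 : 0 < p) (h1 : p < 1) (hf : ∀ x, f x = 0 ∨ f x = 1)
    (hl : Lift π τ f) (d : ℕ) (X : Finset (Fin N)) (v : Fin N) (hv : v ∈ X) (x : ι → Bool) :
    (X.card : ℝ) * ∑ T ∈ PT π d v, fc p (fun z => f (mix (PX π X) z x)) T ^ 2 ≤ 1 := by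
  set F : (ι → Bool) → ℝ := fun z => f (mix (PX π X) z x) with hFdef
  have e1 : (X.card : ℝ) * ∑ T ∈ PT π d v, fc p F T ^ 2
      = ∑ u ∈ X, ∑ T ∈ PT π d u, fc p F T ^ 2 := by
    rw [Finset.sum_congr rfl (fun u hu => PT_weight_eq p hl d X u v hu hv x)]
    rw [Finset.sum_const, nsmul_eq_mul]
  rw [e1, ← Finset.sum_biUnion]
  · calc _ ≤ ∑ T : Finset ι, fc p F T ^ 2 :=
          Finset.sum_le_sum_of_subset_of_nonneg (Finset.subset_univ _) (fun _ _ _ => sq_nonneg _)
      _ = Ex p (fun x => F x ^ 2) := (parseval h0 h1 F).symm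
      _ ≤ Ex p (fun _ => 1) := by
          refine Ex_mono h0.le h1.le fun z => ?_
          rcases hf (mix (PX π X) z x) with h | h <;> simp [hFdef, h]
      _ = 1 := Ex_const p 1
  · intro a ha b hb hab
    rw [Function.onFun, Finset.disjoint_left]
    intro T hTa hTb
    simp only [PT, Finset.mem_filter, Finset.mem_univ, true_and] at hTa hTb
    obtain ⟨e, he⟩ := hTa.1
    exact hab ((hTa.2.2 e he).symm.trans (hTb.2.2 e he))

/-- Key inequality for one block. -/
theorem pblock {p : ℝ} (h0 : 0 < p) (h1 : p < 1) (hf : ∀ x, f x = 0 ∨ f x = 1)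
    (hl : Lift π τ f) (d : ℕ) (X : Finset (Fin N)) (v : Fin N) (hv : v ∈ X) (L : ℕ)
    (hL : L ≤ X.card) (θ : ℝ) (hθ : 0 ≤ θ) (hθ' : 4 * (4 / (p * (1 - p))) ^ d ≤ θ ^ 3 * L) :
    ∑ S ∈ Finset.univ.filter (fun S : Finset ι => S ∩ PX π X ∈ PT π d v), fc p f S ^ 2
      ≤ θ * ∑ S ∈ Finset.univ.filter (fun S : Finset ι => ¬ Disjoint S (PV π v)),
        fc p f S ^ 2 := by
  have hs : 0 < p * (1 - p) := mul_pos h0 (by linarith only [h1])
  have hpt : ∀ x : ι → Bool,
      ∑ T ∈ PT π d v, fc p (fun z => f (mix (PX π X) z x)) T ^ 2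
        ≤ θ * ∑ T ∈ Finset.univ.filter (fun T : Finset ι => ¬ Disjoint T (PV π v)),
          fc p (fun z => f (mix (PX π X) z x)) T ^ 2 := by
    intro x
    have hle := PT_weight_le h0 h1 hf hl d X v hv x
    have hkey := key h0 h1 (fun z => f (mix (PX π X) z x)) (fun z => hf _) (PV π v)
      (PT π d v) d (by
        intro T hT
        simp only [PT, Finset.mem_filter, Finset.mem_univ, true_and] at hT
        exact hT.2.1) (by
        intro T hT
        simp only [PT, Finset.mem_filter, Finset.mem_univ, true_and] at hT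
        obtain ⟨e, he⟩ := hT.1
        intro hdis
        rw [Finset.disjoint_left] at hdis
        apply hdis he
        simp only [PV, Finset.mem_filter, Finset.mem_univ, true_and]
        exact hT.2.2 e he)
    set w := ∑ T ∈ PT π d v, fc p (fun z => f (mix (PX π X) z x)) T ^ 2 with hw
    set j := ∑ T ∈ Finset.univ.filter (fun T : Finset ι => ¬ Disjoint T (PV π v)),
          fc p (fun z => f (mix (PX π X) z x)) T ^ 2 with hj
    have hw0 : 0 ≤ w := Finset.sum_nonneg fun T _ => sq_nonneg _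
    have hj0 : 0 ≤ j := Finset.sum_nonneg fun T _ => sq_nonneg _
    have hLw : (L : ℝ) * w ≤ 1 := by
      have : (L : ℝ) ≤ X.card := by exact_mod_cast hL
      calc (L : ℝ) * w ≤ X.card * w := mul_le_mul_of_nonneg_right this hw0
        _ ≤ 1 := hle
    exact real_aux hw0 hj0 hθ hLw hkey hθ'
  have hE := Ex_mono h0.le h1.le hpt
  rw [Ex_mul_left, Ex_sum_fc_restrict_sq h0 h1, Ex_sum_fc_restrict_sq h0 h1] at hE
  refine hE.trans (le_of_eq ?_)
  congr 1
  refine Finset.sum_congr ?_ fun _ _ => rfl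
  ext S
  simp only [Finset.mem_filter, Finset.mem_univ, true_and, not_iff_not]
  have hsub : ∀ e ∈ PV π v, e ∈ PX π X := by
    intro e he
    simp only [PV, Finset.mem_filter, Finset.mem_univ, true_and] at he
    simp only [PX, Finset.mem_filter, Finset.mem_univ, true_and, he, hv]
  constructor
  · intro h
    rw [Finset.disjoint_left] at h ⊢
    intro e he hev
    exact h (Finset.mem_inter.2 ⟨he, hsub e hev⟩) hev
  · intro h
    exact Finset.disjoint_of_subset_left Finset.inter_subset_left h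

/-- sets of coordinates in which `v` has small positive degree, and not too many vertices are
covered -/
def PLow (π : ι → Fin N) (L d : ℕ) (v : Fin N) : Finset (Finset ι) :=
  Finset.univ.filter (fun S => v ∈ S.image π ∧ (S.filter (fun e => π e = v)).card ≤ d
    ∧ 2 * (S.image π).card ≤ L)

/-- good block indices -/
def pgood (π : ι → Fin N) (L : ℕ) (v : Fin N) (S : Finset ι) : Finset ℕ :=
  Finset.range L \ ((S.image π).erase v).image (fun u => u.val % L)

lemma card_pgood {L d : ℕ} {v : Fin N} {S : Finset ι} (hS : S ∈ PLow π L d v) :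
    L ≤ 2 * (pgood π L v S).card := by
  simp only [PLow, Finset.mem_filter, Finset.mem_univ, true_and] at hS
  have h1 : (Finset.range L).card - (((S.image π).erase v).image (fun u => u.val % L)).card
      ≤ (pgood π L v S).card := Finset.le_card_sdiff _ _
  have h2 : (((S.image π).erase v).image (fun u => u.val % L)).card ≤ (S.image π).card :=
    Finset.card_image_le.trans (Finset.card_le_card (Finset.erase_subset _ _))
  rw [Finset.card_range] at h1
  omega

lemma pgood_mem {L d : ℕ} {v : Fin N} {S : Finset ι} (hS : S ∈ PLow π L d v)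
    {i : ℕ} (hi : i ∈ pgood π L v S) :
    S ∩ PX π (XB L v i) ∈ PT π d v := by
  simp only [PLow, Finset.mem_filter, Finset.mem_univ, true_and] at hS
  obtain ⟨hv, hdeg, -⟩ := hS
  simp only [pgood, Finset.mem_sdiff, Finset.mem_image, Finset.mem_erase, not_exists,
    not_and] at hi
  have hvX : v ∈ XB L v i := by simp only [XB, mem_filter, mem_univ, true_or, and_self]
  have key : ∀ e ∈ S, π e ∈ XB L v i → π e = v := by
    intro e he huX
    by_contra hne
    simp only [XB, Finset.mem_filter, Finset.mem_univ, true_and] at huX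
    rcases huX with h | h
    · exact hne h
    · exact hi.2 (π e) ⟨hne, e, he, rfl⟩ h
  have key2 : ∀ e ∈ S ∩ PX π (XB L v i), π e = v := by
    intro e he
    rw [Finset.mem_inter] at he
    obtain ⟨heS, heX⟩ := he
    simp only [PX, Finset.mem_filter, Finset.mem_univ, true_and] at heX
    exact key e heS heX
  simp only [PT, Finset.mem_filter, Finset.mem_univ, true_and]
  refine ⟨?_, ?_, key2⟩
  · rw [Finset.mem_image] at hv
    obtain ⟨e, he, hve⟩ := hv
    refine ⟨e, Finset.mem_inter.2 ⟨he, ?_⟩⟩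
    simp only [PX, Finset.mem_filter, Finset.mem_univ, true_and, hve, hvX]
  · refine le_trans (Finset.card_le_card ?_) hdeg
    intro e he
    rw [Finset.mem_filter]
    exact ⟨(Finset.mem_inter.1 he).1, key2 e he⟩

lemma mem_image_iff_PV (S : Finset ι) (v : Fin N) :
    v ∈ S.image π ↔ ¬ Disjoint S (PV π v) := by
  rw [Finset.not_disjoint_iff, Finset.mem_image]
  simp only [PV, mem_filter, mem_univ, true_and]

/-- Weight of the sets in which `v` has low degree. -/
theorem plow_le {L d : ℕ} (hL1 : 1 ≤ L) (hL : L * L ≤ N) {p : ℝ} (h0 : 0 < p) (h1 : p < 1)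
    (hf : ∀ x, f x = 0 ∨ f x = 1) (hl : Lift π τ f)
    (θ : ℝ) (hθ : 0 ≤ θ) (hθ' : 4 * (4 / (p * (1 - p))) ^ d ≤ θ ^ 3 * L) (v : Fin N) :
    ∑ S ∈ PLow π L d v, fc p f S ^ 2
      ≤ 2 * θ * ∑ S ∈ Finset.univ.filter (fun S : Finset ι => v ∈ S.image π),
        fc p f S ^ 2 := by
  have hLpos : (0 : ℝ) < L := by exact_mod_cast hL1
  set J := ∑ S ∈ Finset.univ.filter (fun S : Finset ι => v ∈ S.image π),
        fc p f S ^ 2 with hJ
  have hJ' : ∑ S ∈ Finset.univ.filter (fun S : Finset ι => ¬ Disjoint S (PV π v)),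
        fc p f S ^ 2 = J := by
    rw [hJ]
    refine Finset.sum_congr ?_ fun _ _ => rfl
    ext S
    simp only [Finset.mem_filter, Finset.mem_univ, true_and, mem_image_iff_PV]
  have hblock : ∀ i ∈ Finset.range L,
      ∑ S ∈ Finset.univ.filter (fun S : Finset ι =>
        S ∩ PX π (XB L v i) ∈ PT π d v), fc p f S ^ 2 ≤ θ * J := by
    intro i hi
    rw [← hJ']
    exact pblock h0 h1 hf hl d (XB L v i) v
      (by simp only [XB, mem_filter, mem_univ, true_or, and_self]) L
      (card_XB hL v i (Finset.mem_range.1 hi)) θ hθ hθ'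
  have hsum : ∑ S ∈ PLow π L d v, fc p f S ^ 2 * ((pgood π L v S).card : ℝ) ≤ L * (θ * J) := by
    have e1 : ∑ S ∈ PLow π L d v, fc p f S ^ 2 * ((pgood π L v S).card : ℝ)
        = ∑ i ∈ Finset.range L, ∑ S ∈ PLow π L d v,
          (if i ∈ pgood π L v S then fc p f S ^ 2 else 0) := by
      rw [Finset.sum_comm]
      refine Finset.sum_congr rfl fun S _ => ?_
      have hsub : pgood π L v S ⊆ Finset.range L := Finset.sdiff_subset
      rw [Finset.sum_ite_mem, Finset.inter_eq_right.2 hsub, Finset.sum_const, nsmul_eq_mul,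
        mul_comm]
    rw [e1]
    calc _ ≤ ∑ i ∈ Finset.range L, θ * J := by
          refine Finset.sum_le_sum fun i hi => ?_
          refine le_trans ?_ (hblock i hi)
          rw [← Finset.sum_filter]
          refine Finset.sum_le_sum_of_subset_of_nonneg ?_ fun _ _ _ => sq_nonneg _
          intro S hS
          rw [Finset.mem_filter] at hS
          rw [Finset.mem_filter]
          exact ⟨Finset.mem_univ _, pgood_mem hS.1 hS.2⟩
      _ = L * (θ * J) := by rw [Finset.sum_const, Finset.card_range, nsmul_eq_mul]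
  have hge : ∑ S ∈ PLow π L d v, fc p f S ^ 2 * ((L : ℝ) / 2)
      ≤ ∑ S ∈ PLow π L d v, fc p f S ^ 2 * ((pgood π L v S).card : ℝ) := by
    refine Finset.sum_le_sum fun S hS => ?_
    refine mul_le_mul_of_nonneg_left ?_ (sq_nonneg _)
    have : (L : ℝ) ≤ 2 * ((pgood π L v S).card : ℝ) := by exact_mod_cast card_pgood hS
    linarith only [this]
  rw [← Finset.sum_mul] at hge
  have h3 := hge.trans hsum
  have h4 : (∑ S ∈ PLow π L d v, fc p f S ^ 2) * (L : ℝ) ≤ (2 * θ * J) * L := by
    have : (∑ S ∈ PLow π L d v, fc p f S ^ 2) * ((L : ℝ) / 2)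
        = (∑ S ∈ PLow π L d v, fc p f S ^ 2) * (L : ℝ) / 2 := by ring
    rw [this] at h3
    linarith only [hsum, hge]
  exact le_of_mul_le_mul_right h4 hLpos

lemma sum_image (g : Finset ι → ℝ) :
    ∑ v : Fin N, ∑ S ∈ Finset.univ.filter (fun S : Finset ι => v ∈ S.image π), g S
      = ∑ S : Finset ι, ((S.image π).card : ℝ) * g S := by
  simp only [Finset.sum_filter]
  rw [Finset.sum_comm]
  refine Finset.sum_congr rfl fun S _ => ?_
  rw [Finset.sum_ite_mem, Finset.univ_inter, Finset.sum_const, nsmul_eq_mul]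

/-- Total weight of the sets with a vertex of low degree. -/
theorem plow_sum {L d : ℕ} (hL1 : 1 ≤ L) (hL : L * L ≤ N) {p : ℝ} (h0 : 0 < p) (h1 : p < 1)
    (hf : ∀ x, f x = 0 ∨ f x = 1) (hl : Lift π τ f)
    (θ : ℝ) (hθ : 0 ≤ θ) (hθ' : 4 * (4 / (p * (1 - p))) ^ d ≤ θ ^ 3 * L) :
    ∑ v : Fin N, ∑ S ∈ PLow π L d v, fc p f S ^ 2
      ≤ 2 * θ * ∑ S : Finset ι, (S.card : ℝ) * fc p f S ^ 2 := by
  calc ∑ v : Fin N, ∑ S ∈ PLow π L d v, fc p f S ^ 2
      ≤ ∑ v : Fin N, 2 * θ * ∑ S ∈ Finset.univ.filter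
          (fun S : Finset ι => v ∈ S.image π), fc p f S ^ 2 :=
        Finset.sum_le_sum fun v _ => plow_le hL1 hL h0 h1 hf hl θ hθ hθ' v
    _ = 2 * θ * ∑ S : Finset ι, ((S.image π).card : ℝ) * fc p f S ^ 2 := by
        rw [← Finset.mul_sum, sum_image]
    _ ≤ 2 * θ * ∑ S : Finset ι, (S.card : ℝ) * fc p f S ^ 2 := by
        refine mul_le_mul_of_nonneg_left ?_ (by positivity)
        refine Finset.sum_le_sum fun S _ => ?_
        refine mul_le_mul_of_nonneg_right ?_ (sq_nonneg _)
        exact_mod_cast Finset.card_image_le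

end proj

end Vale.Agent.P063.H868
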