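import Vale.Agent.P063.H868.Infl
import Vale.Agent.P063.H868.Defs

/-!
# Widths: generic upper bound
-/

set_option autoImplicit false
set_option linter.unusedSectionVars false

namespace Vale.Agent.P063.H868

open Finset Vale.Agent.P063

/-- upper bound for the distance of two levels -/
theorem crit_upper_gen {g : ℝ → ℝ} {B : ℝ} (hB : 0 < B) (hg1 : g 1 = 1) (hgc : Continuous g)
    (hgm : MonotoneOn g (Set.Icc 0 1))
    (hD : ∀ p : ℝ, 0 < p → p < 1 → ∃ D, HasDerivAt g D p ∧ g p * (1 - g p) ≤ B * D)
    {a b : ℝ} (ha : 0 < a) (hab : a ≤ b) (hb : b < 1) :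
    crit g b - crit g a ≤ B * (Real.log (b / (1 - b)) - Real.log (a / (1 - a))) := by
  have hlog : Real.log (a / (1 - a)) ≤ Real.log (b / (1 - b)) := by
    apply Real.log_le_log (div_pos ha (by linarith only [hab, hb]))
    rw [div_le_div_iff₀ (by linarith only [hab, hb]) (by linarith only [hb])]
    nlinarith only [hab]
  have hmem : ∀ t : ℝ, t ≤ 1 → (1:ℝ) ∈ {p : ℝ | 0 ≤ p ∧ p ≤ 1 ∧ t ≤ g p} := fun t ht =>
    ⟨zero_le_one, le_refl 1, by rw [hg1]; exact ht⟩
  have hbdd : ∀ t : ℝ, BddBelow {p : ℝ | 0 ≤ p ∧ p ≤ 1 ∧ t ≤ g p} := fun t =>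
    ⟨0, fun p hp => hp.1⟩
  set A := crit g a with hA
  set B' := crit g b with hB'
  rcases le_or_gt B' A with hBA | hAB
  · have h2 : 0 ≤ B * (Real.log (b / (1 - b)) - Real.log (a / (1 - a))) :=
      mul_nonneg hB.le (by linarith only [hlog])
    linarith only [hBA, h2]
  have hA0 : 0 ≤ A := le_csInf ⟨1, hmem a (by linarith only [hab, hb])⟩ fun _ hp => hp.1
  have hB1 : B' ≤ 1 := csInf_le (hbdd b) (hmem b hb.le)
  have hmid : ∀ p ∈ Set.Ioo A B', a ≤ g p ∧ g p ≤ b := by
    intro p hp
    have hp0 : 0 ≤ p := by linarith only [hA0, hp.1]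
    have hp1 : p ≤ 1 := by linarith only [hB1, hp.2]
    constructor
    · obtain ⟨p', hp', hlt⟩ := exists_lt_of_csInf_lt
        ⟨1, hmem a (by linarith only [hab, hb])⟩ hp.1
      exact le_trans hp'.2.2 (hgm ⟨hp'.1, hp'.2.1⟩ ⟨hp0, hp1⟩ hlt.le)
    · by_contra hcc
      push Not at hcc
      have : B' ≤ p := csInf_le (hbdd b) ⟨hp0, hp1, hcc.le⟩
      linarith only [this, hp.2]
  have hcl : IsClosed {p : ℝ | a ≤ g p ∧ g p ≤ b} :=
    (isClosed_le continuous_const hgc).inter (isClosed_le hgc continuous_const)
  have hmid' : ∀ p ∈ Set.Icc A B', a ≤ g p ∧ g p ≤ b := by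
    intro p hp
    have h1 : closure (Set.Ioo A B') ⊆ {p : ℝ | a ≤ g p ∧ g p ≤ b} :=
      closure_minimal (fun q hq => hmid q hq) hcl
    rw [closure_Ioo hAB.ne] at h1
    exact h1 hp
  -- the logit
  set h : ℝ → ℝ := fun p => Real.log (g p) - Real.log (1 - g p) with hh
  have hhc : ContinuousOn h (Set.Icc A B') := by
    refine ContinuousOn.sub ?_ ?_
    · exact hgc.continuousOn.log fun p hp => by
        have := (hmid' p hp).1
        exact (lt_of_lt_of_le ha this).ne'
    · exact (continuous_const.sub hgc).continuousOn.log fun p hp => by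
        have := (hmid' p hp).2
        exact (by linarith only [this, hb] : (0:ℝ) < 1 - g p).ne'
  have hder : ∀ p ∈ Set.Ioo A B', ∃ D', HasDerivAt h D' p ∧ 1 / B ≤ D' := by
    intro p hp
    have hp0 : 0 < p := by linarith only [hA0, hp.1]
    have hp1 : p < 1 := by linarith only [hB1, hp.2]
    obtain ⟨D, hDd, hDb⟩ := hD p hp0 hp1
    obtain ⟨h1, h2⟩ := hmid p hp
    have hm0 : 0 < g p := lt_of_lt_of_le ha h1
    have hm1 : 0 < 1 - g p := by linarith only [h2, hb]
    refine ⟨D / g p - (-D) / (1 - g p), (hDd.log hm0.ne').sub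
      ((hDd.const_sub 1).log hm1.ne'), ?_⟩
    have e : D / g p - (-D) / (1 - g p) = D / (g p * (1 - g p)) := by
      field_simp
      ring
    rw [e, div_le_div_iff₀ hB (mul_pos hm0 hm1)]
    linarith only [hDb]
  have hlow : ∀ p ∈ interior (Set.Icc A B'), 1 / B ≤ deriv h p := by
    intro p hp
    rw [interior_Icc] at hp
    obtain ⟨D', h1, h2⟩ := hder p hp
    rw [h1.deriv]
    exact h2
  have hdiff : DifferentiableOn ℝ h (interior (Set.Icc A B')) := by
    intro p hp
    rw [interior_Icc] at hp
    obtain ⟨D', h1, h2⟩ := hder p hp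
    exact h1.differentiableAt.differentiableWithinAt
  have hmvt := Convex.mul_sub_le_image_sub_of_le_deriv (convex_Icc A B') hhc hdiff
    hlow A ⟨le_refl A, hAB.le⟩ B' ⟨hAB.le, le_refl B'⟩ hAB.le
  have hgB : h B' ≤ Real.log (b / (1 - b)) := by
    obtain ⟨h1, h2⟩ := hmid' B' ⟨hAB.le, le_refl B'⟩
    have hm0 : 0 < g B' := lt_of_lt_of_le ha h1
    rw [Real.log_div (by linarith only [ha, hab] : (0:ℝ) < b).ne'
      (by linarith only [hb] : (0:ℝ) < 1 - b).ne']
    have e1 := Real.log_le_log hm0 h2
    have e2 := Real.log_le_log (by linarith only [hb] : (0:ℝ) < 1 - b)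
      (by linarith only [h2] : 1 - b ≤ 1 - g B')
    change Real.log (g B') - Real.log (1 - g B') ≤ _
    linarith only [e1, e2]
  have hgA : Real.log (a / (1 - a)) ≤ h A := by
    obtain ⟨h1, h2⟩ := hmid' A ⟨le_refl A, hAB.le⟩
    have hm0 : 0 < g A := lt_of_lt_of_le ha h1
    rw [Real.log_div ha.ne' (by linarith only [hab, hb] : (0:ℝ) < 1 - a).ne']
    have e1 := Real.log_le_log ha h1
    have e2 := Real.log_le_log (by linarith only [h2, hb] : (0:ℝ) < 1 - g A)
      (by linarith only [h1] : 1 - g A ≤ 1 - a)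
    change _ ≤ Real.log (g A) - Real.log (1 - g A)
    linarith only [e1, e2]
  have h3 : 1 / B * (B' - A) ≤ Real.log (b / (1 - b)) - Real.log (a / (1 - a)) := by
    linarith only [hmvt, hgB, hgA]
  calc B' - A = B * (1 / B * (B' - A)) := by field_simp
    _ ≤ _ := mul_le_mul_of_nonneg_left h3 hB.le

/-- upper bound for the width -/
theorem width_upper_gen {g : ℝ → ℝ} {B : ℝ} (hB : 0 < B) (hg1 : g 1 = 1) (hgc : Continuous g)
    (hgm : MonotoneOn g (Set.Icc 0 1))
    (hD : ∀ p : ℝ, 0 < p → p < 1 → ∃ D, HasDerivAt g D p ∧ g p * (1 - g p) ≤ B * D)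
    {ε : ℝ} (h0 : 0 < ε) (h1 : ε < 1 / 2) :
    width ε g ≤ 2 * B * Real.log ((1 - ε) / ε) := by
  have h2 := crit_upper_gen hB hg1 hgc hgm hD (a := ε) (b := 1 - ε) h0
    (by linarith only [h1]) (by linarith only [h0])
  have e1 : 1 - (1 - ε) = ε := by ring
  have h3 : (0:ℝ) < 1 - ε := by linarith only [h1]
  rw [e1, Real.log_div h3.ne' h0.ne', Real.log_div h0.ne' h3.ne'] at h2
  unfold width
  rw [Real.log_div h3.ne' h0.ne']
  linarith only [h2]

section family

variable {E : Type} [Fintype E] [DecidableEq E]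

/-- the indicator function of the family `P`, as a function on bit vectors -/
noncomputable def indS (P : Set (Finset E)) (x : E → Bool) : ℝ := by
  classical
  exact if Finset.univ.filter (fun e => x e = true) ∈ P then 1 else 0

lemma indS_bool (P : Set (Finset E)) (x : E → Bool) : indS P x = 0 ∨ indS P x = 1 := by
  unfold indS
  split_ifs
  · exact Or.inr rfl
  · exact Or.inl rfl

lemma indS_one {P : Set (Finset E)} {x : E → Bool} :
    indS P x = 1 ↔ Finset.univ.filter (fun e => x e = true) ∈ P := by
  unfold indS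
  split_ifs with h <;> simp [h]

lemma indS_mono {P : Set (Finset E)} (hP : IsUpperSet P) : ∀ x y : E → Bool, x ≤ y →
    indS P x ≤ indS P y := by
  intro x y hxy
  rcases indS_bool P x with hx | hx
  · rw [hx]
    rcases indS_bool P y with hy | hy <;> rw [hy]
    norm_num
  · have h1 := indS_one.1 hx
    have h2 : Finset.univ.filter (fun e => x e = true) ≤ Finset.univ.filter (fun e => y e = true) := by
      intro e he
      rw [Finset.mem_filter] at he ⊢
      refine ⟨he.1, ?_⟩
      have := hxy e
      rw [he.2] at this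
      exact top_le_iff.1 this
    have h3 := indS_one.2 (hP h2 h1)
    rw [hx, h3]

lemma W_eq_pow (p : ℝ) (x : E → Bool) :
    W p x = p ^ (Finset.univ.filter (fun e => x e = true)).card
      * (1 - p) ^ (Fintype.card E - (Finset.univ.filter (fun e => x e = true)).card) := by
  unfold W wt
  rw [Finset.prod_ite, Finset.prod_const, Finset.prod_const]
  congr 2
  have h := Finset.card_filter_add_card_filter_not (s := (Finset.univ : Finset E))
    (fun e => x e = true)
  rw [Finset.card_univ] at h
  omega

lemma prob_eq (P : Set (Finset E)) (p : ℝ) : prob P p = Ex p (indS P) := by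
  classical
  unfold prob Ex
  symm
  refine Fintype.sum_equiv (Equiv.ofBijective
    (fun x : E → Bool => Finset.univ.filter (fun e => x e = true)) ?_) _ _ ?_
  · constructor
    · intro x y h
      funext e
      have h1 := congrArg (fun s : Finset E => e ∈ s) h
      simp only [Finset.mem_filter, Finset.mem_univ, true_and, eq_iff_iff] at h1
      rcases hx : x e with _ | _ <;> rcases hy : y e with _ | _ <;> simp_all
    · intro A
      refine ⟨fun e => decide (e ∈ A), ?_⟩
      ext e
      simp
  · intro x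
    change W p x * indS P x = if Finset.univ.filter (fun e => x e = true) ∈ P then _ else _
    rw [W_eq_pow]
    unfold indS
    split_ifs
    · rw [mul_one]; rfl
    · rw [mul_zero]

lemma prob_fun (P : Set (Finset E)) : prob P = fun p => Ex p (indS P) := by
  funext p; exact prob_eq P p

lemma prob_one {P : Set (Finset E)} (hP : IsUpperSet P) (hne : P.Nonempty) : prob P 1 = 1 := by
  classical
  obtain ⟨A0, hA0⟩ := hne
  have htop : (Finset.univ : Finset E) ∈ P := hP (Finset.subset_univ A0) hA0
  unfold prob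
  rw [Finset.sum_eq_single (Finset.univ : Finset E)]
  · rw [if_pos htop]; simp
  · intro A _ hA
    split_ifs with h
    · have hc : A.card < Fintype.card E := by
        rw [← Finset.card_univ]
        exact Finset.card_lt_card (Finset.ssubset_univ_iff.2 hA)
      have h2 : Fintype.card E - A.card ≠ 0 := by omega
      rw [sub_self, zero_pow h2, mul_zero]
    · rfl
  · intro h; exact absurd (Finset.mem_univ _) h

lemma prob_continuous (P : Set (Finset E)) : Continuous (prob P) := by
  classical
  unfold prob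
  apply continuous_finsetSum
  intro A _
  by_cases hA : A ∈ P
  · simp only [if_pos hA]
    exact (continuous_id.pow _).mul ((continuous_const.sub continuous_id).pow _)
  · simp only [if_neg hA]; exact continuous_const

lemma prob_deriv {P : Set (Finset E)} (hP : IsUpperSet P) {p : ℝ} (h0 : 0 < p)
    (h1 : p < 1) : ∃ D : ℝ, HasDerivAt (prob P) D p ∧ 0 ≤ D ∧
      ∑ S : Finset E, (S.card : ℝ) * fc p (indS P) S ^ 2 = p * (1 - p) * D := by
  obtain ⟨D, hD, hDI⟩ := russo h0 h1 (indS P) (indS_bool P) (indS_mono hP)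
  refine ⟨D, by rw [prob_fun]; exact hD, ?_, hDI⟩
  have hpq : 0 < p * (1 - p) := mul_pos h0 (by linarith)
  have h2 : 0 ≤ p * (1 - p) * D := by
    rw [← hDI]
    exact Finset.sum_nonneg fun S _ => mul_nonneg (Nat.cast_nonneg _) (sq_nonneg _)
  exact nonneg_of_mul_nonneg_right h2 hpq

lemma prob_monoOn {P : Set (Finset E)} (hP : IsUpperSet P) :
    MonotoneOn (prob P) (Set.Icc 0 1) := by
  apply monotoneOn_of_deriv_nonneg (convex_Icc 0 1)
  · exact (prob_continuous P).continuousOn
  · intro p hp
    rw [interior_Icc] at hp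
    obtain ⟨D, hD, _⟩ := prob_deriv hP hp.1 hp.2
    exact hD.differentiableAt.differentiableWithinAt
  · intro p hp
    rw [interior_Icc] at hp
    obtain ⟨D, hD, hD0, _⟩ := prob_deriv hP hp.1 hp.2
    rw [hD.deriv]
    exact hD0

end family

section multi

variable {r : ℕ} {n : Fin r → ℕ}

/-- **upper bound for the width of multipartite properties** -/
theorem mwidth (hr : 2 ≤ r) (hn : ∀ i, 2 ≤ n i) {P : Set (Finset (Cell n))}
    (hinv : ∀ s : (i : Fin r) → Equiv.Perm (Fin (n i)), ∀ A ∈ P,
      A.map (Equiv.piCongrRight s).toEmbedding ∈ P)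
    (hP : IsUpperSet P) (hne : P.Nonempty) {ε : ℝ} (h0 : 0 < ε) (h1 : ε < 1 / 2) :
    width ε (prob P) ≤ 2 * (1024 * r * Theta n) * Real.log ((1 - ε) / ε) := by
  classical
  have hr2 : (2 : ℝ) ≤ r := by exact_mod_cast hr
  have hΘ : 0 < Theta n := by
    have i : Fin r := ⟨0, by omega⟩
    refine lt_of_lt_of_le ?_ (le_theta n i)
    apply Real.rpow_pos_of_pos
    have := hn i
    have : 0 < n i := by omega
    exact_mod_cast this
  -- invariance
  have hmem : ∀ i (σ : Equiv.Perm (Fin (n i))), ∀ A ∈ P, A.map (side i σ).toEmbedding ∈ P := by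
    intro i σ A hA
    have h2 := hinv (Function.update (fun j => Equiv.refl (Fin (n j))) i σ) A hA
    have h3 : side i σ = Equiv.piCongrRight
        (Function.update (fun j => Equiv.refl (Fin (n j))) i σ) := by
      ext e j
      rw [side_apply]
      simp only [Equiv.piCongrRight_apply, Pi.map_apply]
      by_cases hj : j = i
      · subst hj
        rw [Function.update_self, Function.update_self]
      · rw [Function.update_of_ne hj, Function.update_of_ne hj]
        rfl
    rw [h3]
    exact h2
  have hinv' : ∀ i (σ : Equiv.Perm (Fin (n i))) (x : Cell n → Bool),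
      indS P (fun e => x (side i σ e)) = indS P x := by
    have key : ∀ i (σ : Equiv.Perm (Fin (n i))) (x : Cell n → Bool),
        indS P (fun e => x (side i σ e)) = 1 → indS P x = 1 := by
      intro i σ x hx
      rw [indS_one] at hx ⊢
      have h2 := hmem i σ _ hx
      convert h2 using 1
      ext e
      simp only [Finset.mem_filter, Finset.mem_univ, true_and, Finset.mem_map,
        Equiv.coe_toEmbedding]
      constructor
      · intro he
        refine ⟨(side i σ).symm e, ?_, ?_⟩
        · simpa using he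
        · simp
      · rintro ⟨a, ha, rfl⟩
        exact ha
    intro i σ x
    rcases indS_bool P x with hx | hx
    · rcases indS_bool P (fun e => x (side i σ e)) with hy | hy
      · rw [hx, hy]
      · have := key i σ x hy
        rw [this] at hx
        norm_num at hx
    · rw [hx]
      apply key i σ.symm (fun e => x (side i σ e))
      have : (fun e => (fun e => x (side i σ e)) (side i σ.symm e)) = x := by
        funext e
        simp [side_apply]
      rw [this]
      exact hx
  refine width_upper_gen (by positivity) (prob_one hP hne) (prob_continuous P) (prob_monoOn hP)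
    ?_ h0 h1
  intro p hp0 hp1
  obtain ⟨D, hD, hD0, hDI⟩ := prob_deriv hP hp0 hp1
  refine ⟨D, hD, ?_⟩
  have h2 := minfl hr hn hp0 hp1 (indS P) (indS_bool P) hinv'
  rw [hDI, ← prob_eq] at h2
  have hpq : 0 < p * (1 - p) := mul_pos hp0 (by linarith only [hp1])
  have h3 : p * (1 - p) * (prob P p * (1 - prob P p))
      ≤ p * (1 - p) * (1024 * r * Theta n * D) := by
    calc p * (1 - p) * (prob P p * (1 - prob P p))
        = p * (1 - p) * (prob P p - prob P p ^ 2) := by ring
      _ ≤ _ := h2
      _ = _ := by ring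
  exact le_of_mul_le_mul_left h3 hpq

end multi

end Vale.Agent.P063.H868
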